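import Vale.Agent.P354SN.Fl
import Vale.Agent.P354YC.Cor

/-!
STR: the straightening of a lens.
-/

set_option maxSynthPendingDepth 3

open scoped ContDiff
open Set Filter Topology Function

noncomputable section

namespace Vale.Agent.P354SN

open Vale.Agent.P354n (R4 mink)
open Vale.Agent.P354H (X3)
open Vale.Agent.P354I (X Dat)
open Vale.Agent.P354R (Met)
open Vale.Agent.P354RC
open Vale.Agent.P354XD (tb rp_tb)
open Vale.Agent.P354XE (Tw Lor eT pt xs Ft Tm)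
open Vale.Agent.P354XU (L4 Rol St0 IndAt Slc)
open Vale.Agent.P354UR
open Vale.Agent.P354YM
open Vale.Agent.P354YC (st st_sub st_star st_open)
open Vale.Agent.P354YO (cone_trans)

/-- The equation of parallel transport along the lines of b. -/
def vp (g : Tw) (b : R4 → R4) (z : R4 × L4) : L4 :=
  -(GB (tb g) (b z.1) (fderiv ℝ b z.1 eT)).comp z.2

variable {g : Tw} {D Ω : Set R4} {b : R4 → R4} {E0 : X3 → L4}

theorem vp_cd (hD : IsOpen D) (M : Met g D) {z : R4 × L4} (s : ContDiffAt ℝ ∞ b z.1)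
    (m : b z.1 ∈ D) : ContDiffAt ℝ ∞ (vp g b) z :=
  ((ContDiffAt.comp (g := fun p => GB (tb g) (b p) (fderiv ℝ b p eT)) z
    (((GB_cd (rp_tb hD M) m).comp z.1 s).clm_apply ((at_fd s).clm_apply contDiffAt_const))
    contDiffAt_fst).clm_comp contDiffAt_snd).neg

/-- Parallel transport of an orthonormal frame. -/
theorem ex_par (hD : IsOpen D) (M : Met g D) (hΩ : IsOpen Ω) (sΩ : P354XU.Star Ω)
    (sb : ContDiffOn ℝ ∞ b Ω) (mb : MapsTo b Ω D) {O : Set X3} (hO : IsOpen O)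
    (sE : ContDiffOn ℝ ∞ E0 O) (mO : ∀ p ∈ Ω, p.2 ∈ O)
    (ho : ∀ x, (0, x) ∈ Ω → ∀ v w, g (b (0, x)) (E0 x v) (E0 x w) = mink v w) :
    ∃ E : R4 → L4, Rol g D Ω (fun p => (E p).inverse (fderiv ℝ b p eT)) 0 b E ∧
      (∀ x, (0, x) ∈ Ω → E (0, x) = E0 x) ∧ ∀ p ∈ Ω, fderiv ℝ E p eT = vp g b (p, E p) := by
  have r := rp_tb hD M
  have ab := fun p m => sb.contDiffAt (hΩ.mem_nhds (x := p) m)
  have pe : ∀ s z, P354YQ.pt eT Prod.fst s z = (((1 - s) * z.1, z.2) : R4) := fun s z => by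
    simp [P354YQ.pt, eT, Prod.ext_iff, sub_mul]
  have pm : ∀ z ∈ Ω, ∀ s ∈ Icc (0 : ℝ) 1, ((1 - s) * z.1, z.2) ∈ Ω := fun z m s a =>
    sΩ z m _ (mem_uI.2 ⟨_, P354YQ.flip_mem a, rfl⟩)
  have bd : ∀ z ∈ Ω, ∃ L, 0 ≤ L ∧ ∀ s ∈ Icc (0 : ℝ) 1, ‖GB (tb g) (b ((1 - s) * z.1, z.2))
      (fderiv ℝ b ((1 - s) * z.1, z.2) eT)‖ ≤ L := fun z m => by
    obtain ⟨L, k⟩ := (isCompact_Icc (a := (0 : ℝ)) (b := 1)).exists_bound_of_continuousOn
      (f := fun s => GB (tb g) (b ((1 - s) * z.1, z.2)) (fderiv ℝ b ((1 - s) * z.1, z.2) eT))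
      fun s a => (ContinuousAt.comp (g := fun p => GB (tb g) (b p) (fderiv ℝ b p eT))
        (f := fun s : ℝ => (((1 - s) * z.1, z.2) : R4))
        (((GB_cd r (mb (pm z m s a))).comp _ (ab _ (pm z m s a))).clm_apply
          ((at_fd (ab _ (pm z m s a))).clm_apply contDiffAt_const)).continuousAt
        (by fun_prop)).continuousWithinAt
    exact ⟨L, (norm_nonneg _).trans (k 0 ⟨le_rfl, zero_le_one⟩), k⟩
  choose! L L0 hL using bd
  obtain ⟨E, hE⟩ := P354YQ.ode_ex (e := eT) (v := vp g b) (U := Ω ×ˢ univ) (hΩ.prod isOpen_univ)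
    (fun z m => (vp_cd hD M (ab _ m.1) (mb m.1)).contDiffWithinAt) hΩ (τ := Prod.fst)
    (fun _ _ => .of contDiff_fst) (fun z t => by simp [eT]) (x0 := fun z => E0 z.2) (R := fun _ => 0)
    (fun z m => .of_on (U := Prod.snd ⁻¹' O) (sE.comp contDiffOn_snd fun _ a => a)
      (hO.preimage continuous_snd) (by simpa [pe] using mO z m))
    (L := L) (ε := fun _ => 0) (δ := fun z => ‖E0 z.2‖)
    (ρ := fun z => (‖E0 z.2‖ + 0 * |z.1|) * Real.exp (L z * |z.1|) + 1)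
    (fun z m => ⟨L0 z m, le_rfl⟩) (fun z m s a => ⟨differentiableAt_const _, fun y _ =>
      ⟨⟨pe s z ▸ pm z m s a, trivial⟩, by
        simpa [vp, pe] using (ContinuousLinearMap.opNorm_comp_le _ y).trans
          (mul_le_mul_of_nonneg_right (hL z m s a) (norm_nonneg y))⟩⟩)
    (fun z _ => by simp [pe]) fun z _ => lt_add_one _
  have aE := fun p m => (hE p m).1.sm.at
  have od := fun p m => (hE p m).1.ode.self_of_nhds
  have dE : ∀ p ∈ Ω, ∀ v, fderiv ℝ E p eT v + Gm (tb g) (b p) (fderiv ℝ b p eT) (E p v) = 0 :=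
    fun p m v => by simp [od p m, vp, GB_ap]
  have fr := fun p m => fd_fr r (ab p m) (aE p m) (mb m)
  have F : P354XU.Fr g D Ω b E := ⟨hΩ, sb, fun p m => (aE p m).contDiffWithinAt, mb,
    fun p m v w => by
      rw [r.eq _ (mb m), ← mB_ap]
      have z := sΩ p m 0 left_mem_uIcc
      refine congrArg (fun B : B2 => B v w) (uq (Φ' := fun _ => mB)
        (Φ := fun q => (tb g (b q)).bilinearComp (E q) (E q)) (v := fun _ => 0) hΩ
        (fun q a => ⟨at_df (fr q a 0 0 0).2, ?_⟩) (fun q a => ⟨differentiableAt_const _, by simp⟩)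
        (fun q a => contDiffAt_const) (sΩ p m) ?_) <;>
        refine ContinuousLinearMap.ext fun v => ContinuousLinearMap.ext fun w => ?_
      · simp [(fr q a _ _ _).1, dE q a]
      · simp only [(hE _ z).2.2.1 rfl, ContinuousLinearMap.bilinearComp_apply, mB_ap]
        rw [← r.eq _ (mb z), ho _ z]⟩
  have i := fun p m => (Fr.inv F M (p := p) m).self_apply_inverse (fderiv ℝ b p eT)
  exact ⟨E, ⟨F, fun p m => (i p m).symm, fun p m v => by simp [i p m, dE p m]⟩,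
    fun x m => (hE _ m).2.2.1 rfl, od⟩

theorem pt_cd : ContDiff ℝ ∞ (pt 0) := by
  unfold pt
  fun_prop

theorem pt_inj (y : X) : Injective (fderiv ℝ (pt 0) y) := by
  have d := ((xs_cd.differentiable (by simp) (pt 0 y)).hasFDerivAt.comp y
    (pt_cd.differentiable (by simp) y).hasFDerivAt).unique
    ((hasFDerivAt_id y).congr_of_eventuallyEq (.of_forall (xs_pt 0)))
  intro u v a
  have k := fun u => congrArg (· u) d
  simp only [ContinuousLinearMap.comp_apply, ContinuousLinearMap.id_apply] at k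
  rw [← k u, ← k v, a]

theorem gb_congr {g' : Tw} {x : R4} (e : ∀ᶠ y in 𝓝 x, g y = g' y) (u v : R4) :
    Gm (tb g) x u v = Gm (tb g') x u v := by
  have k : tb g =ᶠ[𝓝 x] tb g' := e.mono fun y a => by simp only [tb, a]
  simp only [Gm, C1, k.fderiv_eq, k.eq_of_nhds]

/-- **STR.** -/
theorem str : STR := by
  intro W g Xf τ V d L g0 D X0 d0 c0 Ω0 b0 E0 A l0 R0 sA AΩ iA h
  have l := L.lor
  have e0 := fun p m => (h p m).2.2.2.1.self_of_nhds
  obtain ⟨Z, sZ, ⟨C, bZ⟩, hZ, ZA⟩ := ex_vf l L.cpt (fun _ a => a.1) sA.1 R0.rol.isOpen AΩ R0.rol.sb iA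
    fun p m => ⟨(h p m).1, (h p m).2.2.1, by
      simpa only [Ft, (e0 p m).1, (e0 p m).2, R0.rol.db p (AΩ m)] using
        Ro.ft l0 R0 (AΩ m) (h p m).2.1⟩
  obtain ⟨F, H⟩ := ex_flo sZ bZ
  set O : Set X := {y | pt 0 y ∈ W ∧ ∀ᶠ z in 𝓝 y, IndAt g Xf (pt 0) d z}
  have hO : IsOpen O := (l.isOpen.preimage pt_cd.continuous).inter isOpen_setOfPred_eventually_nhds
  obtain ⟨E1, sE1, st1, on1⟩ := fr0 g W Xf (pt 0) d O l
    ⟨hO, pt_cd.contDiffOn, fun _ a => a.1, fun y _ => pt_inj y, fun y a => a.2.self_of_nhds⟩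
  set S : Set R4 := {p | (ph F p ∈ W ∧ Ft g Xf (ph F p) (Z (ph F p))) ∧ 0 < qq Z F p ∧ xs p ∈ O}
  have hS : IsOpen S := (IsOpen.preimage (t := {x | x ∈ W ∧ Ft g Xf x (Z x)}) H.ph_cd.continuous
    (isOpen_iff_mem_nhds.2 fun x m => ft_ev l m.1 sZ.continuous.continuousAt m.2)).inter
      ((isOpen_lt continuous_const H.qq_c).inter (hO.preimage xs_cd.continuous))
  have hΩ := st_open hS
  have mS := st_sub S
  have inΩ : ∀ T ≥ 0, ∀ y, (∀ s ∈ Icc 0 T, ph F (s, y) ∈ KV W τ V) → (T, y) ∈ st S :=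
    fun T a y k s m => by
      rw [uIcc_of_le a] at m
      have z : ((0, y) : R4) ∈ KV W τ V := H.ph0 y ▸ k 0 ⟨le_rfl, a⟩
      exact ⟨⟨(k s m).1, hZ _ (k s m)⟩, H.qq_pos L hZ k s m, z.1, (L.sig (xs (s, y)) z).2⟩
  have sg : ∀ p ∈ st S, (0 ≤ (ph F p).1 ↔ 0 ≤ p.1) ∧ (0 < (ph F p).1 ↔ 0 < p.1) := fun p m => by
    rw [H.qq_eq]
    exact ⟨mul_nonneg_iff_of_pos_right (mS m).2.1, mul_pos_iff_of_pos_right (mS m).2.1⟩
  have aux : ∀ p ∈ st S, ∀ p' : R4, ph F p = ph F p' → p.1 - p'.1 ∈ uIcc 0 p.1 → p = p' :=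
    fun p m p' e a => by
      have k : ph F (p.1 - p'.1, p.2) = (0, p'.2) := by
        have := congrArg (F (-p'.1)) e
        simpa [ph, H.add, H.zero, neg_add_eq_sub] using this
      have k1 := H.qq_eq (p.1 - p'.1, p.2)
      rw [k] at k1
      have k2 : p.1 - p'.1 = 0 := (mul_eq_zero.1 k1.symm).resolve_right (m _ a).2.1.ne'
      rw [k2, H.ph0] at k
      exact Prod.ext (sub_eq_zero.1 k2) (Prod.ext_iff.1 k).2
  have inj : InjOn (ph F) (st S) := fun p m p' m' e => by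
    have s := (sg p m).1.symm.trans (e ▸ (sg p' m').1)
    by_cases a : 0 ≤ p.1 <;> rcases le_total p.1 p'.1 with k | k
    · exact (aux p' m' p e.symm (mem_uIcc_of_le (sub_nonneg.2 k) (sub_le_self _ a))).symm
    · exact aux p m p' e (mem_uIcc_of_le (sub_nonneg.2 k) (sub_le_self _ (s.1 a)))
    · exact aux p m p' e (mem_uIcc_of_ge (le_sub_self_iff _ |>.2 (not_le.1 (mt s.2 a)).le)
        (sub_nonpos.2 k))
    · exact (aux p' m' p e.symm (mem_uIcc_of_ge (le_sub_self_iff _ |>.2 (not_le.1 a).le)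
        (sub_nonpos.2 k))).symm
  have loc : ∀ p ∈ st S, Injective (fderiv ℝ (ph F) p) := fun p m =>
    H.ph_inj (H.qq0 p.2 ▸ (m 0 left_mem_uIcc).2.1.ne')
  obtain ⟨o1, o2⟩ := glob_inv hΩ H.ph_cd.contDiffOn loc inj
  obtain ⟨E, R, Ez, od⟩ := ex_par l.isOpen l.met hΩ (st_star S) H.ph_cd.contDiffOn
    (fun p m => (mS m).1.1) (O := {x | xs (0, x) ∈ O})
    (hO.preimage (xs_cd.continuous.comp (by fun_prop))) sE1 (fun p m => (mS m).2.2)
    fun x m => (H.ph0 x).symm ▸ on1 (xs (0, x)) (mS m).2.2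
  have RR : Ro g W Xf d _ (st S) (ph F) E := ⟨R, st_star S, fun y m => by
    rw [show E (pt 0 y) = E1 (pt 0 y).2 from Ez _ m]
    exact ⟨H.ph0 _, (st1 y (xs_pt 0 y ▸ (mS m).2.2)).2⟩⟩
  have PA : ∀ p ∈ A, ph F p = b0 p := fun p m => by
    have k := fun t a => (sA.2 p m).2 t (uIcc_of_le (sA.2 p m).1 ▸ a)
    exact uq1 (w := fun q => Z q.2) (γ := fun t => ph F (t, p.2)) (γ' := fun t => b0 (t, p.2))
      (fun t _ => (sZ.comp contDiff_snd).contDiffAt.of_le (by simp)) (fun t _ => H.ph_d t p.2)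
      (fun t a => ZA _ (k t a) ▸ line_d (at_df (Fr.atb R0.rol.toFr (AΩ (k t a)))))
      ((H.ph0 _).trans (R0.st (xs p) (AΩ (k 0 left_mem_uIcc))).1.symm)
  have AS : A ⊆ st S := fun p m => inΩ p.1 (sA.2 p m).1 p.2 fun s a =>
    PA _ ((sA.2 p m).2 s a) ▸ (h _ ((sA.2 p m).2 s a)).2.2.1
  refine ⟨_, st S, ph F, invFunOn (ph F) (st S), E, ⟨RR, fun p m => inj.leftInvOn_invFunOn m, loc,
    o1, o2, fun p m => ?_, sg, fun x m => ?_, fun V' hV p m k s a => ?_⟩, AS,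
    fun p m => ⟨?_, PA p m⟩⟩
  · have f := (mS m).1.2
    rw [← H.ph_T, R.db p m] at f
    have o := R.on p m
    have k := cone_trans l (mS m).1.1 f.1 (l.tl _ (mS m).1.1) (w := E p eT)
      (by rw [o, mink_T]; simp [eT]) f.2 (l.met.symm _ (mS m).1.1 _ _ ▸ Ro.fut l RR m)
    rw [o, mink_T] at k
    exact ⟨⟨o _ _ ▸ f.1, neg_neg_iff_pos.1 k⟩, f⟩
  · obtain ⟨T, a, y, e, k⟩ := H.back L hZ le_rfl m
    exact ⟨_, inΩ T a y k, e⟩
  · obtain ⟨T, t, y, e, j⟩ := H.back L hZ hV k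
    obtain rfl : (T, y) = p := inj (inΩ T t y fun s a =>
      ⟨(j s a).1, (j s a).2.1, (j s a).2.2.trans hV⟩) m e
    exact j s a
  · have k := fun t a => (sA.2 p m).2 t (uIcc_of_le (sA.2 p m).1 ▸ a)
    have z := k 0 left_mem_uIcc
    have z0 := R0.st (xs p) (AΩ z)
    have z1 := RR.st (xs p) (AS z)
    have e1 := e0 _ z
    have hz := h _ z
    rw [← pt_z, z0.1] at e1 hz
    have e : E p = E0 p := uq1 (w := fun q => vp g (ph F) ((q.1, p.2), q.2))
      (γ := fun t => E (t, p.2)) (γ' := fun t => E0 (t, p.2))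
      (fun t a => ContDiffAt.comp (g := vp g (ph F)) _ ((vp_cd (z := ((t, p.2), E (t, p.2)))
        l.isOpen l.met H.ph_cd.contDiffAt (mS (AS (k t a))).1.1).of_le (by simp)) (by fun_prop))
      (fun t a => od _ (AS (k t a)) ▸ line_d (at_df (Fr.atE R.toFr (AS (k t a)))))
      (fun t a => by
        convert line_d (at_df (Fr.atE R0.rol.toFr (AΩ (k t a)))) using 1
        refine ContinuousLinearMap.ext fun v => ?_
        have := R0.rol.dE _ (AΩ (k t a)) v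
        rw [← R0.rol.db _ (AΩ (k t a)), ← ZA _ (k t a), ← gb_congr ((h _ (k t a)).2.2.2.1.mono
          fun _ b => b.1), ← PA _ (k t a), ← H.ph_T] at this
        simpa [vp, GB_ap, eq_comm, neg_eq_iff_add_eq_zero, add_comm] using this)
      (fr_uq l hz.2.2.1.1 (z1.1 ▸ R.on _ (AS z)) (e1.1 ▸ z0.1 ▸ R0.rol.on _ (AΩ z)) z1.2.1
        (e1.1 ▸ e1.2 ▸ z0.2.1) (pd_pos (L.pd.2 _ (xs_pt 0 (xs p) ▸ L.ne _ hz.2.2.1.1)).1) fun i => by
          refine (z1.2.2 i).symm.trans ?_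
          rw [show d.h (xs p) = d0.h (xs p) from xs_pt 0 (xs p) ▸ hz.2.2.2.2 rfl]
          exact z0.2.2 i)
    simp only [H.ph_T, PA p m, ZA p m, R0.rol.db p (AΩ m), e]
    exact (Fr.inv R0.rol.toFr l0.met (AΩ m)).inverse_apply_self _

end Vale.Agent.P354SN
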