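import Vale.Agent.P354SN.Ru

/-!
Inverse maps, and a timelike field with prescribed values.
-/

set_option maxSynthPendingDepth 3

open scoped ContDiff Manifold
open Set Filter Topology Function

namespace Vale.Agent.P354SN

open Vale.Agent.P354n (R4 mink)
open Vale.Agent.P354RC
open Vale.Agent.P354XD (tb rp_tb)
open Vale.Agent.P354XE (Tw Lor eT pt xs Ft Tm)
open Vale.Agent.P354YO (cone_trans cone_pos)
open Vale.Agent.P354UR

variable {f : R4 → R4} {O : Set R4} {p : R4}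

/-- An injective local diffeomorphism has a smooth inverse. -/
theorem glob_inv (hO : IsOpen O) (hf : ContDiffOn ℝ ∞ f O)
    (i : ∀ p ∈ O, Injective (fderiv ℝ f p)) (j : InjOn f O) :
    IsOpen (f '' O) ∧ ContDiffOn ℝ ∞ (invFunOn f O) (f '' O) := by
  have k : ∀ p ∈ O, f '' O ∈ 𝓝 (f p) ∧ ContDiffAt ℝ ∞ (invFunOn f O) (f p) := fun p m => by
    have s := hf.contDiffAt (hO.mem_nhds m)
    obtain ⟨A, e⟩ := inv_of (i p m)
    have d : HasFDerivAt f (A : R4 →L[ℝ] R4) p := e ▸ (at_df s).hasFDerivAt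
    have S := s.hasStrictFDerivAt' d (by simp)
    exact ⟨S.map_nhds_eq_of_equiv ▸ image_mem_map (hO.mem_nhds m),
      (s.to_localInverse d (by simp)).congr_of_eventuallyEq (S.localInverse_unique
        ((hO.eventually_mem m).mono fun x a => j.leftInvOn_invFunOn a))⟩
  exact ⟨isOpen_iff_mem_nhds.2 fun _ ⟨p, m, e⟩ => e ▸ (k p m).1,
    fun _ ⟨p, m, e⟩ => e ▸ (k p m).2.contDiffWithinAt⟩

theorem loc_inj (hO : IsOpen O) (hf : ContDiffOn ℝ ∞ f O) (m : p ∈ O)
    (i : Injective (fderiv ℝ f p)) : ∃ O' ⊆ O, IsOpen O' ∧ p ∈ O' ∧ InjOn f O' ∧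
      ∀ q ∈ O', Injective (fderiv ℝ f q) := by
  have s := hf.contDiffAt (hO.mem_nhds m)
  obtain ⟨A, e⟩ := inv_of i
  have d : HasFDerivAt f (A : R4 →L[ℝ] R4) p := e ▸ (at_df s).hasFDerivAt
  have S := s.hasStrictFDerivAt' d (by simp)
  have v : ∀ᶠ q in 𝓝 p, (fderiv ℝ f q).IsInvertible :=
    (at_fd s).continuousAt.eventually (ContinuousLinearEquiv.isOpen.mem_nhds (inv_of i))
  obtain ⟨O', a, b, c⟩ := mem_nhds_iff.1 ((v.and (hO.eventually_mem m)).and
    ((S.toOpenPartialHomeomorph f).open_source.eventually_mem S.mem_toOpenPartialHomeomorph_source))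
  exact ⟨O', fun q k => (a k).1.2, b, c,
    (S.toOpenPartialHomeomorph f).injOn.mono fun q k => (a k).2, fun q k => by
      obtain ⟨B, e⟩ := (a k).1.1
      exact e ▸ B.injective⟩

variable {g : Tw} {W K A : Set R4} {Xf v b : R4 → R4} {x : R4}

theorem ft_ev (l : Lor g W Xf) (m : x ∈ W) (hv : ContinuousAt v x) (h : Ft g Xf x (v x)) :
    ∀ᶠ y in 𝓝 x, y ∈ W ∧ Ft g Xf y (v y) := by
  have r := rp_tb l.isOpen l.met
  have c := (r.at m).continuousAt.clm_apply hv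
  filter_upwards [l.isOpen.eventually_mem m, (c.clm_apply hv).eventually_lt continuousAt_const
    (show _ < (0 : ℝ) from r.eq _ m _ _ ▸ h.1),
    (c.clm_apply (l.cont.continuousAt (l.isOpen.mem_nhds m))).eventually_lt continuousAt_const
    (show _ < (0 : ℝ) from r.eq _ m _ _ ▸ h.2)] with y a b c
  exact ⟨a, r.eq _ a _ _ ▸ b, r.eq _ a _ _ ▸ c⟩

theorem ft_cvx (l : Lor g W Xf) (m : x ∈ W) : Convex ℝ {u | Ft g Xf x u} := by
  intro u hu w hw a b ha hb e
  have r := rp_tb l.isOpen l.met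
  have k := cone_trans l m hu.1 (l.tl x m) hw.1.le hu.2 (l.met.symm x m _ _ ▸ hw.2)
  obtain ⟨u1, u2⟩ := hu
  obtain ⟨w1, w2⟩ := hw
  simp only [mem_ofPred_eq, Ft, r.eq _ m, map_add, map_smul, add_apply, smul_apply, smul_eq_mul,
    r.symm _ m w u] at *
  obtain rfl | c := ha.eq_or_lt
  · obtain rfl : b = 1 := by linarith
    exact ⟨by linarith, by linarith⟩
  exact ⟨by nlinarith [mul_pos (mul_pos c c) (neg_pos.2 u1),
      mul_nonneg (mul_nonneg ha hb) (neg_pos.2 k).le, mul_nonneg (mul_nonneg hb hb) (neg_pos.2 w1).le],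
    by nlinarith [mul_pos c (neg_pos.2 u2), mul_nonneg hb (neg_pos.2 w2).le]⟩

theorem tm_pos {τ : R4 → ℝ} {u : R4} (l : Lor g W Xf) (m : x ∈ W) (t : Tm g Xf τ x)
    (h : Ft g Xf x u) : 0 < fderiv ℝ τ x u :=
  cone_pos l.met m (fderiv ℝ τ x).toLinearMap.isLinear t.2.2 (l.tl x m) h.1
    (l.met.symm x m _ _ ▸ h.2) t.2.1

/-- A bounded field which is future timelike on K and tangent to the lines of b on A. -/
theorem ex_vf (l : Lor g W Xf) (hK : IsCompact K) (KW : K ⊆ W) (hA : IsCompact A) (hO : IsOpen O)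
    (AO : A ⊆ O) (sb : ContDiffOn ℝ ∞ b O) (j : InjOn b A)
    (h : ∀ p ∈ A, Injective (fderiv ℝ b p) ∧ b p ∈ K ∧ Ft g Xf (b p) (fderiv ℝ b p eT)) :
    ∃ Z : R4 → R4, ContDiff ℝ ∞ Z ∧ (∃ C, ∀ x, ‖Z x‖ ≤ C) ∧ (∀ x ∈ K, Ft g Xf x (Z x)) ∧
      ∀ p ∈ A, Z (b p) = fderiv ℝ b p eT := by
  obtain ⟨ρ, hρ⟩ := hK.isBounded.subset_ball 0
  have cb : ∀ {S}, S ⊆ A → IsCompact S → IsClosed (b '' S) := fun s c =>
    (c.image_of_continuousOn (sb.continuousOn.mono (s.trans AO))).isClosed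
  obtain ⟨Z, hZ⟩ := exists_contMDiffMap_forall_mem_convex_of_local (n := ⊤) 𝓘(ℝ, R4)
    (t := fun x => {u | (x ∈ K → Ft g Xf x u ∧ ∀ p ∈ A, b p = x → u = fderiv ℝ b p eT) ∧
      (x ∉ Metric.ball 0 ρ → u = 0)}) (fun x u hu w hw a c ha hc e => ⟨fun m =>
        ⟨ft_cvx l (KW m) (hu.1 m).1 (hw.1 m).1 ha hc e, fun p k i => by
          rw [(hu.1 m).2 p k i, (hw.1 m).2 p k i, ← add_smul, e, one_smul]⟩,
        fun m => by rw [hu.2 m, hw.2 m, smul_zero, smul_zero, add_zero]⟩) fun x => by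
      by_cases m : x ∈ K
      swap
      · exact ⟨_, hK.isClosed.isOpen_compl.mem_nhds m, fun _ => 0, contMDiffOn_const,
          fun y a => ⟨fun k => (a k).elim, fun _ => rfl⟩⟩
      have B := Metric.isOpen_ball.eventually_mem (hρ m)
      by_cases n : x ∈ b '' A
      swap
      · refine ⟨_, (ft_ev (v := fun _ => Xf x) l (KW m) continuousAt_const
          ⟨l.tl x (KW m), l.tl x (KW m)⟩).and (B.and ((cb le_rfl hA).isOpen_compl.eventually_mem n)),
          fun _ => Xf x, contMDiffOn_const, fun y a => ⟨fun _ => ⟨a.1.2, fun p k i => ?_⟩,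
            fun k => (k a.2.1).elim⟩⟩
        exact (a.2.2 ⟨p, k, i⟩).elim
      obtain ⟨p, pA, rfl⟩ := n
      obtain ⟨O', s, o, pO, i1, i2⟩ := loc_inj hO sb (AO pA) (h p pA).1
      obtain ⟨o1, o2⟩ := glob_inv o (sb.mono s) i2 i1
      have sv : ContDiffOn ℝ ∞ (fun y => fderiv ℝ b (invFunOn b O' y) eT) (b '' O') := fun y a =>
        (((at_fd (sb.contDiffAt (hO.mem_nhds (s (invFunOn_mem a))))).comp_contDiffWithinAt y
          (o2 y a)).clm_apply contDiffWithinAt_const)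
      have pm : b p ∈ b '' O' := mem_image_of_mem b pO
      have n : b p ∉ b '' (A \ O') := fun ⟨q, a, e⟩ => a.2 (j a.1 pA e ▸ pO)
      refine ⟨_, (ft_ev l (KW m) (sv.continuousOn.continuousAt (o1.mem_nhds pm))
        (by simpa only [i1.leftInvOn_invFunOn pO] using (h p pA).2.2)).and (B.and
          (((cb sdiff_subset (hA.diff o)).isOpen_compl.eventually_mem n).and (o1.eventually_mem pm))),
        _, (sv.mono fun y a => a.2.2.2).contMDiffOn, fun y a => ⟨fun _ => ⟨a.1.2, fun q k e => ?_⟩,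
          fun k => (k a.2.1).elim⟩⟩
      have qO : q ∈ O' := by_contra fun c => a.2.2.1 ⟨q, ⟨k, c⟩, e⟩
      rw [← e, i1.leftInvOn_invFunOn qO]
  have sZ : ContDiff ℝ ∞ Z := Z.contMDiff.contDiff
  exact ⟨Z, sZ, (HasCompactSupport.intro (isCompact_closedBall 0 ρ) fun x m =>
    (hZ x).2 fun k => m (Metric.ball_subset_closedBall k)).exists_bound_of_continuous sZ.continuous,
    fun x m => ((hZ x).1 m).1, fun p m => ((hZ _).1 (h p m).2.1).2 p m rfl⟩

end Vale.Agent.P354SN
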