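import Vale.Agent.P354SN.Ray

/-!
The rays of a metric which is close to a metric in the ray form.
-/

set_option maxSynthPendingDepth 3

open scoped ContDiff
open Set Filter Topology

noncomputable section

namespace Vale.Agent.P354SN

open Vale.Agent.P354n (R4)
open Vale.Agent.P354R (Met Pull)
open Vale.Agent.P354RC (B2 Gm C1 Rp fd_ap0 at_fd at_df)
open Vale.Agent.P354XD (tb rp_tb)
open Vale.Agent.P354XE (Tw pb Bd)
open Vale.Agent.P354YI (Oj Os Jb GM GM_ap tb_sub)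
open Vale.Agent.P354YQ (SA JB JD Sol Mt Tb oj_ex)
open Vale.Agent.P354SA (e0 e1 ey Om dg)

/-- The hypotheses: g0 is in the ray form on Ω, and g is close to g0 near Ω. -/
structure Nh (k : ℕ) (B c ρ μ : ℝ) (Ω D : Set R4) (g0 g : Tw) : Prop where
  sg : Sg Ω
  cv : Convex ℝ Ω
  op : IsOpen D
  m0 : Met g0 D
  met : Met g D
  tube : ∀ z ∈ Ω, ∀ x, ‖x - z‖ ≤ ρ → x ∈ D ∧ Bd (k + 3) g0 x B ∧ Bd (k + 2) (g - g0) x μ ∧
    ∀ v, ‖v‖ ≤ B * ‖tb g0 x v‖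
  ray : ∀ z ∈ Ω, |ts z| ≤ B ∧ RF g0 z ∧ c ≤ Om g0 z ∧ c ≤ dg g0 z

/-- The lines along e0 are mapped to pregeodesics. -/
def Pg (g : Tw) (F : R4 → R4) (z : R4) : Prop :=
  ∃ κ : ℝ, Gm (tb g) (F z) (fderiv ℝ F z e0) (fderiv ℝ F z e0) +
    fderiv ℝ (fderiv ℝ F) z e0 e0 = κ • fderiv ℝ F z e0

/-- The conclusion: F is close to the identity and puts g into the ray form. -/
structure Nc (k : ℕ) (ρ η : ℝ) (Ω D : Set R4) (g0 g : Tw) (F : R4 → R4) : Prop where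
  pull : Pull F (pb F g) Ω g D
  inj : InjOn F Ω
  pt : ∀ z ∈ Ω, (F z).1 = z.1 ∧ (ts z = 0 → F z = z) ∧ RF (pb F g) z ∧ Pg g F z ∧
    ‖F z - z‖ ≤ ρ ∧ JB (k + 1) (fun x => F x - x) z η ∧ Bd k (pb F g - g0) z η

/-- The equation of the pregeodesics. -/
def vg (g : Tw) (q : R4 × R4 × R4) : R4 × R4 :=
  (q.2.2, (GM (tb g) q.2.1 q.2.2 q.2.2).1 • q.2.2 - GM (tb g) q.2.1 q.2.2 q.2.2)

theorem gm_at {g : Tw} {D : Set R4} (o : IsOpen D) (m : Met g D) {x : R4} (h : x ∈ D) :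
    ContDiffAt ℝ ∞ (GM (tb g)) x := ContDiffAt.sum fun a _ => ContDiffAt.sum fun b _ =>
  (P354YI.el R4 a b).contDiff.contDiffAt.comp _
    ((rp_tb o m).gm_cd h contDiffAt_const contDiffAt_const)

theorem vg_cd {g : Tw} {D : Set R4} (o : IsOpen D) (m : Met g D) :
    ContDiffOn ℝ ∞ (vg g) {q | q.2.1 ∈ D} := fun q hq => by
  have a : ContDiffAt ℝ ∞ (fun q : R4 × R4 × R4 => GM (tb g) q.2.1 q.2.2 q.2.2) q :=
    (((gm_at o m hq).comp q contDiffAt_snd.fst).clm_apply contDiffAt_snd.snd).clm_apply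
      contDiffAt_snd.snd
  exact (contDiffAt_snd.snd.prodMk ((a.fst.smul contDiffAt_snd.snd).sub a)).contDiffWithinAt

theorem oj_lin {J E V : Type} [NormedAddCommGroup E] [NormedSpace ℝ E] [NormedAddCommGroup V]
    [NormedSpace ℝ V] (L : E →L[ℝ] V) {x : J → E} (m : ℕ) (h : ∃ C, ∀ j, ‖L (x j)‖ ≤ C) :
    Oj m x (fun _ => L) 1 := by
  have h0 : Oj 0 x (fun _ => L) 1 :=
    .zero (fun _ => L.contDiff.contDiffAt) (fun _ => zero_le_one) (by simpa using h)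
  cases m with
  | zero => exact h0
  | succ m => exact h0.succ ((Oj.cst L).congr' fun _ _ => L.fderiv)

/-- A solution of the equation with the right initial values. -/
theorem of_sol {g : Tw} {Ω D : Set R4} (hΩ : Sg Ω) (o : IsOpen D) (m : Met g D)
    {Ψ : R4 → R4 × R4} (h : ∀ z ∈ Ω, Sol e0 (vg g) Ψ z ∧ (Ψ z).1 ∈ D ∧
      (ts z = 0 → Ψ z = (z, w0 (tb g z)) ∧ tb g z ∈ Ow)) : ∀ z ∈ Ω,
    (Ψ z).1.1 = z.1 ∧ RF (pb (fun x => (Ψ x).1) g) z ∧ Pg g (fun x => (Ψ x).1) z := by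
  have r := rp_tb o m
  have s := fun z a => (h z a).1.sm.at
  have o1 : ∀ z ∈ Ω, fderiv ℝ Ψ z e0 = vg g (z, Ψ z) := fun z a => (h z a).1.ode.self_of_nhds
  have d1 : ∀ z ∈ Ω, fderiv ℝ (fun x => (Ψ x).1) z e0 = (Ψ z).2 := fun z a => by
    rw [fderiv.fst (at_df (s z a)), ContinuousLinearMap.comp_apply, o1 z a]
    rfl
  have d2 : ∀ z ∈ Ω, fderiv ℝ (fun x => (Ψ x).2) z e0 = (vg g (z, Ψ z)).2 := fun z a => by
    rw [fderiv.snd (at_df (s z a)), ContinuousLinearMap.comp_apply, o1 z a]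
    rfl
  let κ : R4 → ℝ := fun z => (Gm (tb g) (Ψ z).1 (Ψ z).2 (Ψ z).2).1
  have cκ : ContinuousOn κ Ω := fun z a => by
    have b := P354YI.at_comp (f := fun x => (Ψ x).1) (gm_at o m (h z a).2.1) (s z a).fst
    have b' := ((b.clm_apply (s z a).snd).clm_apply (s z a).snd).fst.continuousAt
    simp only [GM_ap] at b'
    exact b'.continuousWithinAt
  have pg : ∀ z ∈ Ω, Gm (tb g) (Ψ z).1 (fderiv ℝ (fun x => (Ψ x).1) z e0)
      (fderiv ℝ (fun x => (Ψ x).1) z e0) + fderiv ℝ (fderiv ℝ fun x => (Ψ x).1) z e0 e0 =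
      κ z • fderiv ℝ (fun x => (Ψ x).1) z e0 := fun z a => by
    have e : (fun x => fderiv ℝ (fun x => (Ψ x).1) x e0) =ᶠ[𝓝 z] fun x => (Ψ x).2 :=
      (hΩ.op.eventually_mem a).mono d1
    rw [← fd_ap0 (at_fd (s z a).fst), e.fderiv_eq, d2 z a, d1 z a]
    simp [vg, GM_ap, κ]
  have u := tr0 hΩ (u := fun z => (Ψ z).2.1 - 1) cκ (fun z a =>
    ⟨(at_df (s z a).snd.fst).sub_const _, by
      rw [fderiv_sub_const, fderiv.fst (at_df (s z a).snd), ContinuousLinearMap.comp_apply, d2 z a]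
      simp [vg, GM_ap, κ, mul_sub]⟩) fun z a t => by rw [((h z a).2.2 t).1, w0_fst, sub_self]
  have u' := tr0 hΩ (u := fun z => (Ψ z).1.1 - z.1) (c := fun _ => 0) continuousOn_const
    (fun z a => ⟨(at_df (s z a).fst.fst).sub differentiableAt_fst, by
      rw [fderiv_fun_sub (at_df (s z a).fst.fst) differentiableAt_fst, sub_apply,
        fderiv.fst (at_df (s z a).fst), ContinuousLinearMap.comp_apply, d1 z a, fderiv_fst]
      simpa [e0] using u z a⟩) fun z a t => by rw [((h z a).2.2 t).1, sub_self]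
  refine fun z a => ⟨sub_eq_zero.1 (u' z a), ray r hΩ cκ
    (fun z a => ⟨(s z a).fst, (h z a).2.1, pg z a⟩) (fun z a t => ?_) z a, _, pg z a⟩
  obtain ⟨p, q⟩ := (h z a).2.2 t
  have zD : z ∈ D := by simpa [p] using (h z a).2.1
  have w := w0_null (r.symm z zD) q
  have f : ∀ i, fderiv ℝ (fun x => (Ψ x).1) z (ey i) = ey i := fun i => by
    have l : HasDerivAt (fun t : ℝ => z + t • ey i) (ey i) 0 := by
      simpa using ((hasDerivAt_id (0 : ℝ)).smul_const (ey i)).const_add z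
    refine (((at_df (s z a).fst).hasFDerivAt.comp_hasDerivAt_of_eq 0 l (by simp)).unique
      (l.congr_of_eventuallyEq ?_))
    filter_upwards [l.continuousAt.eventually (hΩ.op.mem_nhds (by simpa using a))] with t' b
    have : ts (z + t' • ey i) = 0 := by fin_cases i <;> simpa [ts, ey] using t
    simp [((h _ b).2.2 this).1]
  simp only [RF, pb, d1 z a, f, p, r.eq z zD]
  exact w

/-- The forms in the ray form with bounds. -/
def Kr (B c : ℝ) : Set B2 :=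
  {T | ‖T‖ ≤ B ∧ T e0 e0 = 0 ∧ (∀ a, T e0 (ey a) = 0) ∧ c ≤ T e0 e1 ∧ c ≤ dt T}

theorem kr_cpt (B c : ℝ) : IsCompact (Kr B c) := by
  refine (isCompact_closedBall (0 : B2) B).of_isClosed_subset ?_ fun T m => by simpa using m.1
  simp only [Kr, ofPred_and, ofPred_forall]
  exact (isClosed_le continuous_norm continuous_const).inter
    ((isClosed_eq (ap_cd _ _).continuous continuous_const).inter
    ((isClosed_iInter fun a => isClosed_eq (ap_cd _ _).continuous continuous_const).inter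
    ((isClosed_le continuous_const (ap_cd _ _).continuous).inter
    (isClosed_le continuous_const dt_cd.continuous))))

theorem kr_sub {B c : ℝ} (hc : 0 < c) : Kr B c ⊆ Ow := fun T m => by
  have := w0_rf m.2.1 m.2.2.1
  have p := hc.trans_le m.2.2.2.1
  exact ⟨hc.trans_le m.2.2.2.2, this.2.1 ▸ p, this.2.2 ▸ by positivity⟩

/-- The data of the theorem. -/
structure Nd (k : ℕ) (B c ρ : ℝ) where
  μ : ℝ
  Ω : Set R4
  D : Set R4
  g0 : Tw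
  g : Tw
  h : Nh k B c ρ μ Ω D g0 g

section
variable {k : ℕ} {B c ρ : ℝ}

/-- The tube, and the points of the tubes. -/
def Nd.N (j : Nd k B c ρ) : Set R4 := {x | ∃ z ∈ j.Ω, ‖x - z‖ ≤ ρ}
abbrev Ni (k : ℕ) (B c ρ : ℝ) : Type := {i : Nd k B c ρ × R4 // i.2 ∈ i.1.N}

theorem ΩN (hρ : 0 < ρ) (j : Nd k B c ρ) : j.Ω ⊆ j.N := fun z m => ⟨z, m, by simpa using hρ.le⟩

theorem tI (i : Ni k B c ρ) : i.1.2 ∈ i.1.1.D ∧ Bd (k + 3) i.1.1.g0 i.1.2 B ∧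
    Bd (k + 2) (i.1.1.g - i.1.1.g0) i.1.2 i.1.1.μ ∧ ∀ v, ‖v‖ ≤ B * ‖tb i.1.1.g0 i.1.2 v‖ :=
  i.1.1.h.tube _ i.2.choose_spec.1 _ i.2.choose_spec.2

theorem sI (i : Ni k B c ρ) {g : Tw} (m : Met g i.1.1.D) (v w : R4) :
    ContDiffAt ℝ ∞ (fun y => g y v w) i.1.2 :=
  (m.smooth v w).contDiffAt (i.1.1.h.op.mem_nhds (tI i).1)

theorem M0 : Mt (k + 3) (fun i : Ni k B c ρ => i.1.2) (fun i => i.1.1.g0) fun i => i.1.1.D :=
  ⟨fun i => i.1.1.h.op, fun i => i.1.1.h.m0, fun i => (tI i).1,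
    (Oj.tb (fun i => sI i i.1.1.h.m0) fun i => (tI i).2.1).wt (c := B) (fun _ => zero_le_one)
      fun _ => (mul_one _).ge, |B|, abs_nonneg _, fun i v => ((tI i).2.2.2 v).trans
        (mul_le_mul_of_nonneg_right (le_abs_self _) (norm_nonneg _))⟩

theorem dI : Os (k + 2) (Nd.N (B := B) (c := c) (ρ := ρ)) (fun j y => tb j.g0 y - tb j.g y)
    fun j : Nd k B c ρ => j.μ :=
  ((Oj.tb (fun i v w => (sI i i.1.1.h.met v w).sub (sI i i.1.1.h.m0 v w))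
    fun i => (tI i).2.2.1).congr' fun _ _ => (tb_sub _ _ _).symm).symm

end

theorem anr1 (k : ℕ) (B : ℝ) {c ρ : ℝ} (hc : 0 < c) (hρ : 0 < ρ) : ∃ ε > 0, ∃ C, 0 ≤ C ∧
    ∀ j : Nd k B c ρ, ∃ Ψ : R4 → R4 × R4, j.μ ≤ ε → ∀ z ∈ j.Ω, Sol e0 (vg j.g) Ψ z ∧
      ‖(Ψ z).1 - z‖ ≤ ρ ∧ (ts z = 0 → Ψ z = (z, w0 (tb j.g z)) ∧ tb j.g z ∈ Ow) ∧
      Jb (k + 1) (fun x => (Ψ x).1 - x) z (C * j.μ) := by
  let J := Nd k B c ρ
  let I := Ni k B c ρ
  have ΩN := ΩN (k := k) (B := B) (c := c) hρ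
  have M0 := M0 (k := k) (B := B) (c := c) (ρ := ρ)
  have dI := dI (k := k) (B := B) (c := c) (ρ := ρ)
  obtain ⟨η, η0, M1⟩ := (M0.le (Nat.le_succ _)).near (fun i => i.1.1.h.met) dI
  obtain ⟨b, b0, hb⟩ := M0.bd.val
  obtain ⟨δ, δ0, hδ⟩ := (kr_cpt b c).exists_cthickening_subset_open ow_open (kr_sub hc)
  obtain ⟨a, a0, ha⟩ := dI.val
  let ε1 := min η (δ / (a + 1))
  let J1 := {j : J // j.μ ≤ ε1}
  have kr : ∀ (j : J), ∀ z ∈ j.Ω, tb j.g0 z ∈ Kr b c := fun j z m => by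
    have e := (rp_tb j.h.op j.h.m0).eq z (tI ⟨(j, z), ΩN j m⟩).1
    obtain ⟨-, p, q, r⟩ := j.h.ray z m
    refine ⟨by simpa using hb ⟨(j, z), ΩN j m⟩, e _ _ ▸ p.1, fun a => e _ _ ▸ p.2 a, e _ _ ▸ q, ?_⟩
    simpa [dt, ← e, dg, P354SA.gm] using r
  have sg : ∀ (j : J1), ∀ z ∈ j.1.Ω, segment ℝ (tb j.1.g0 z) (tb j.1.g z) ⊆
      Metric.cthickening δ (Kr b c) := fun j z m => by
    refine ((convex_closedBall _ δ).segment_subset (Metric.mem_closedBall_self δ0.le) ?_).trans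
      (Metric.closedBall_subset_cthickening (kr j z m) δ)
    have n := dI.nn ⟨(j.1, z), ΩN _ m⟩
    have := (le_div_iff₀ (by positivity)).1 (j.2.trans (min_le_right _ _))
    exact mem_closedBall_iff_norm'.2 ((ha ⟨(j.1, z), ΩN _ m⟩).trans (by dsimp only at n ⊢; nlinarith))
  let Φ : R4 → R4 × R4 := fun z => (z, e0)
  let I1 := {i : J1 × R4 × R4 × R4 // i.2 ∈ Tb i.1.1.Ω Φ ρ}
  let φ : I1 → I := fun i => ⟨(i.1.1.1, i.1.2.2.1), _, i.2.1, (norm_fst_le _).trans i.2.2⟩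
  have G0 := (M0.ix φ).gm
  have G1 := ((M0.ix φ).le (Nat.le_succ _)).gm_sub
    (M1 φ fun i => i.1.1.2.trans (min_le_left _ _)) (dI.ix φ)
  let L1 : R4 × R4 × R4 →L[ℝ] R4 := (ContinuousLinearMap.fst ℝ R4 R4).comp (.snd ℝ R4 _)
  let L2 : R4 × R4 × R4 →L[ℝ] R4 := (ContinuousLinearMap.snd ℝ R4 R4).comp (.snd ℝ R4 _)
  have W : ∀ n, Oj n (fun i : I1 => i.1.2) (fun _ q => q.2.2) 1 := fun n =>
    oj_lin L2 n ⟨‖e0‖ + ρ, fun i => (norm_le_norm_add_norm_sub' _ e0).trans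
      (add_le_add le_rfl ((norm_snd_le _).trans i.2.2))⟩
  have cp : ∀ {n μ} {Γ : I1 → R4 → P354YI.C3}, Oj n (fun i : I1 => i.1.2.2.1) Γ μ →
      Oj n (fun i : I1 => i.1.2) (fun i q => Γ i q.2.1 q.2.2 q.2.2) μ := fun {n μ Γ} h =>
    ((Oj.comp (f := fun _ => L1) (fun _ => L1.contDiff.contDiffAt) n
      ((Oj.cst L1).congr' fun _ _ => L1.fderiv) h).apl (W n)).apl (W n)
  have ft : ∀ (j : J), ∀ z ∈ j.Ω, P354YQ.pt e0 ts 1 z ∈ j.Ω := fun j z m =>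
    j.h.sg.st z m 1 ⟨zero_le_one, le_rfl⟩
  let Lf : R4 →L[ℝ] R4 := ((ContinuousLinearMap.fst ℝ ℝ _).comp (.snd ℝ ℝ _)).prod (.snd ℝ ℝ _)
  have eL : P354YQ.pt e0 ts 1 = Lf := funext fun z => by simp [P354YQ.pt, ts, e0, Lf, Prod.ext_iff]
  let I2 := {i : J1 × R4 // i.2 ∈ i.1.1.Ω}
  let ψ : I2 → I := fun i => ⟨(i.1.1.1, Lf i.1.2), ΩN _ (eL ▸ ft _ _ i.2)⟩
  have cf : ∀ {n μ} {T : I2 → R4 → B2}, Oj n (fun i : I2 => Lf i.1.2) T μ →
      Oj n (fun i : I2 => i.1.2) (fun i q => T i (Lf q)) μ := fun {n μ T} h =>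
    Oj.comp (f := fun _ => Lf) (fun _ => Lf.contDiff.contDiffAt) n
      ((Oj.cst Lf).congr' fun _ _ => Lf.fderiv) h
  have t0 := cf (M0.bd.ix ψ).pred
  have t1 := cf (M1 ψ fun i => i.1.1.2.trans (min_le_left _ _)).bd
  have lp := Oj.lip t0.sm t1.sm (S := fun _ => Metric.cthickening δ (Kr b c))
    (fun i => sg _ _ (eL ▸ ft _ _ i.2)) (k + 1) (G := fun _ => w0) (ν := 1) t0.fd.pred t1.fd.pred
    (cf (dI.ix ψ)).pred (Oj.fix (kr_cpt b c).cthickening (fun T m => w0_cd (hδ m)) fun i => i.2)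
  rw [one_mul] at lp
  have A1 : ∀ (j : J1), ∀ z ∈ j.1.Ω, ∀ᶠ x in 𝓝 z, fderiv ℝ Φ x e0 = vg j.1.g0 (x, Φ x) := by
    intro j z m
    filter_upwards [j.1.h.sg.op.eventually_mem m] with x mx
    have := gm_rf (rp_tb j.1.h.op j.1.h.m0) (tI ⟨(j.1, x), ΩN _ mx⟩).1
      ((j.1.h.sg.op.eventually_mem mx).mono fun y my => (j.1.h.ray y my).2.1)
      (hc.trans_le (j.1.h.ray x mx).2.2.1).ne'
    have e : fderiv ℝ Φ x = _ := ((hasFDerivAt_id x).prodMk (hasFDerivAt_const e0 x)).fderiv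
    rw [e]
    simp only [vg, Φ, GM_ap, ← this]
    simp
  have A2 : ∀ (j : J1), ∀ z ∈ j.1.Ω, SA (fun z => (z, w0 (tb j.1.g z))) z := fun j z m => by
    filter_upwards [j.1.h.sg.op.eventually_mem m] with x mx
    exact contDiffAt_id.prodMk ((w0_cd (hδ (sg j x mx (right_mem_segment _ _ _)))).comp x
      ((rp_tb j.1.h.op j.1.h.met).at (tI ⟨(j.1, x), ΩN _ mx⟩).1))
  obtain ⟨ε, ε0, Ψ, h1, h2⟩ := oj_ex (J := J1) (k := k) (e := e0) (τ := fun _ => ts)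
    (v := fun j => vg j.1.g0) (v' := fun j => vg j.1.g) (Φ := fun _ => Φ) (μ := fun j => j.1.μ)
    (Ω := fun j => j.1.Ω) (U := fun j => {q | q.2.1 ∈ j.1.D})
    (x0 := fun j z => (z, w0 (tb j.1.g z))) hρ
    (fun j => ⟨j.1.h.op.preimage continuous_snd.fst, vg_cd j.1.h.op j.1.h.m0,
      vg_cd j.1.h.op j.1.h.met, j.1.h.sg.op, fun q m => (tI (φ ⟨(j, q), m⟩)).1, ts_add⟩)
    (fun j z m => ⟨.of ts_cd, ⟨.of (contDiff_id.prodMk contDiff_const), A1 j z m⟩,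
      A2 j _ (ft _ z m), j.1.h.sg.st z m⟩)
    (oj_lin (P354RC.cv 0 - P354RC.cv 1) (x := fun i : I2 => i.1.2) _
      ⟨B, fun i => (i.1.1.1.h.ray _ i.2).1⟩)
    ((W _).pair ((((cp G0).clm (.fst ℝ ℝ _)).smull (W _)).sub (cp G0)))
    (((Oj.const (v := fun _ => (0 : R4)) G1.nn ⟨0, by simp⟩).pair
      ((((cp G1).clm (.fst ℝ ℝ _)).smull (W _)).sub (cp G1))).congr' fun i q => by
        simp [vg, sub_smul]
        abel)
    ((Oj.cst (Lf.prod (0 : R4 →L[ℝ] R4))).congr' fun _ y => by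
      rw [eL]
      exact (Lf.hasFDerivAt.prodMk (hasFDerivAt_const e0 y)).fderiv)
    (((Oj.const (v := fun _ => (0 : R4)) lp.nn ⟨0, by simp⟩).pair lp).congr fun i => by
      filter_upwards [i.1.1.1.h.sg.op.mem_nhds i.2] with y m
      have := kr _ _ (ft _ _ m)
      rw [eL] at this ⊢
      simp [Φ, ψ, (w0_rf this.2.1 this.2.2.1).1])
  obtain ⟨C, c0, hC⟩ := (h2.clm (.fst ℝ R4 R4)).neg.bd
  refine ⟨min ε1 ε, by positivity, C, c0, fun j => ?_⟩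
  by_cases m : j.μ ≤ min ε1 ε
  swap
  · exact ⟨0, fun a => absurd a m⟩
  let i : {j : J1 // j.1.μ ≤ ε} := ⟨⟨j, m.trans (min_le_left _ _)⟩, m.trans (min_le_right _ _)⟩
  refine ⟨Ψ i, fun _ z a => ⟨(h1 _ i.2 z a).1, (norm_fst_le _).trans (h1 _ i.2 z a).2.1.2,
    fun t => ⟨(h1 _ i.2 z a).2.2 t, hδ (sg i z a (right_mem_segment _ _ _))⟩, ?_⟩⟩
  simpa [Φ] using hC ⟨(i, z), a⟩

/-- **The rays of close metrics.** -/
theorem anr (k : ℕ) (B : ℝ) {c ρ : ℝ} (hc : 0 < c) (hρ : 0 < ρ) : ∃ ε > 0, ∃ C, 0 ≤ C ∧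
    ∀ μ Ω D g0 g, Nh k B c ρ μ Ω D g0 g → μ ≤ ε → ∃ F, Nc k ρ (C * μ) Ω D g0 g F := by
  obtain ⟨ε, ε0, C2, c2, h1⟩ := anr1 k B hc hρ
  choose Ψ h1 using h1
  let I3 := {i : {j : Nd k B c ρ // j.μ ≤ ε} × R4 // i.2 ∈ i.1.1.Ω}
  let F : Nd k B c ρ → R4 → R4 := fun j x => (Ψ j x).1
  have H := fun i : I3 => h1 _ i.1.1.2 _ i.2
  have sF : ∀ i : I3, ContDiffAt ℝ ∞ (F i.1.1) i.1.2 := fun i => (H i).1.sm.at.fst
  have n : ∀ i : I3, 0 ≤ i.1.1.1.μ := fun i => dI.nn ⟨(i.1.1.1, i.1.2), ΩN hρ _ i.2⟩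
  have d : Oj (k + 1) (fun i : I3 => i.1.2) (fun i x => F i.1.1 x - x) fun i => i.1.1.1.μ :=
    ⟨fun i => (sF i).sub contDiffAt_id, n, C2, c2, fun i => (H i).2.2.2⟩
  have id1 : Oj k (fun i : I3 => i.1.2) (fun _ => fderiv ℝ fun x : R4 => x) 1 :=
    (Oj.cst (.id ℝ R4)).congr' fun _ _ => fderiv_fun_id
  have ed : ∀ i : I3, fderiv ℝ (F i.1.1) =ᶠ[𝓝 i.1.2] fun y =>
      fderiv ℝ (fun x => F i.1.1 x - x) y + fderiv ℝ (fun x : R4 => x) y := fun i => by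
    filter_upwards [P354YI.ev_dif (sF i)] with y p
    rw [fderiv_fun_sub p differentiableAt_fun_id, sub_add_cancel]
  have dF : Oj k (fun i : I3 => i.1.2) (fun i => fderiv ℝ (F i.1.1)) 1 :=
    ((d.fd.wt (c := ε) (fun _ => zero_le_one) fun i => by simpa using i.1.1.2).add id1).congr ed
  have p1 := Oj.pb sF dF ((dI.at (fun i : I3 => i.1.1.1) fun i => ⟨_, i.2, (H i).2.1⟩).le
    (Nat.le_add_right k 2))
  have q1 : Os (k + 1) (fun i : I3 => i.1.1.1.N) (fun i => tb i.1.1.1.g0) 1 :=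
    Os.at (S := Nd.N) (G := fun j => tb j.g0) (μ := 1) M0.bd.pred.pred
      (fun i : {i : I3 × R4 // i.2 ∈ i.1.1.1.1.N} => i.1.1.1.1.1) fun i => i.2
  have q2 : ∀ i : I3, segment ℝ (F i.1.1 i.1.2) i.1.2 ⊆ i.1.1.1.N := fun i x m =>
    ⟨_, i.2, mem_closedBall_iff_norm.1 ((convex_closedBall _ ρ).segment_subset
      (mem_closedBall_iff_norm.2 (H i).2.1) (Metric.mem_closedBall_self hρ.le) m)⟩
  have p2 := Oj.pb_lip (f' := fun _ x => x) sF (fun _ => contDiffAt_fun_id) q2 dF id1 d q1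
  obtain ⟨C1, c1, hC1⟩ := (p2.sub p1).bd' (g := fun i => pb (F i.1.1) i.1.1.1.g - i.1.1.1.g0)
    fun i => by
      filter_upwards [i.1.1.1.h.sg.op.mem_nhds i.2] with y m v w
      have e := (rp_tb i.1.1.1.h.op i.1.1.1.h.m0).eq y (tI ⟨(_, y), ΩN hρ _ m⟩).1
      have e' := (rp_tb i.1.1.1.h.op i.1.1.1.h.met).eq _
        (tI ⟨(_, F i.1.1 y), _, m, (H ⟨(i.1.1, y), m⟩).2.1⟩).1
      simp [pb, P354RC.pb_ap, e, e']
  refine ⟨min ε (1 / (2 * C2 + 1)), by positivity, C1 + C2, by positivity,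
    fun μ Ω D g0 g h m => ?_⟩
  let j : {j : Nd k B c ρ // j.μ ≤ ε} := ⟨⟨μ, Ω, D, g0, g, h⟩, m.trans (min_le_left _ _)⟩
  have m2 := (le_div_iff₀ (by positivity)).1 (m.trans (min_le_right _ _))
  have n : ∀ z ∈ Ω, 0 ≤ μ := fun z a => n ⟨(j, z), a⟩
  have G := fun z (a : z ∈ Ω) => H ⟨(j, z), a⟩
  have sm : ∀ z ∈ Ω, ‖fderiv ℝ (fun x => F j x - x) z‖ ≤ 1 / 2 := fun z a =>
    (G z a).2.2.2.fd.zero.trans (by dsimp only [j]; nlinarith [n z a])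
  have mD : ∀ z ∈ Ω, F j z ∈ D := fun z a => (h.tube z a _ (G z a).2.1).1
  have os := of_sol h.sg h.op h.met (Ψ := Ψ j) fun z a => ⟨(G z a).1, mD z a, (G z a).2.2.1⟩
  have l1 : ∀ z ∈ Ω, C1 * μ ≤ (C1 + C2) * μ ∧ C2 * μ ≤ (C1 + C2) * μ := fun z a =>
    ⟨by nlinarith [n z a], by nlinarith [n z a]⟩
  have b1 : ∀ z ∈ Ω, JB (k + 1) (fun x => F j x - x) z ((C1 + C2) * μ) := fun z a =>
    ⟨((G z a).1.sm.clm (.fst ℝ R4 R4)).sub (.of contDiff_id), (G z a).2.2.2.mono le_rfl (l1 z a).2⟩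
  have b2 : ∀ z ∈ Ω, Bd k (pb (F j) g - g0) z ((C1 + C2) * μ) := fun z a i p v w =>
    (hC1 ⟨(j, z), a⟩ i p v w).trans (mul_le_mul_of_nonneg_right (l1 z a).1 (by positivity))
  have b3 : ∀ z ∈ Ω, ts z = 0 → F j z = z := fun z a t => by
    simp only [F]
    rw [((G z a).2.2.1 t).1]
  refine ⟨F j, ⟨h.sg.op, h.op, h.met, fun z a => (sF ⟨(j, z), a⟩).contDiffWithinAt, mD,
    fun z a => (injective_iff_map_eq_zero _).2 fun v e => ?_, fun _ _ _ _ => rfl⟩,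
    fun x a y a' e => ?_, fun z a => ⟨(os z a).1, b3 z a, (os z a).2.1, (os z a).2.2,
      (G z a).2.1, b1 z a, b2 z a⟩⟩
  · have := (ed ⟨(j, z), a⟩).self_of_nhds
    have p := (fderiv ℝ (fun x => F j x - x) z).le_of_opNorm_le (sm z a) v
    dsimp only at this
    rw [this, add_apply, fderiv_fun_id, ContinuousLinearMap.id_apply] at e
    rw [eq_neg_of_add_eq_zero_left e, norm_neg] at p
    exact norm_le_zero_iff.1 (by linarith)
  · have := h.cv.norm_image_sub_le_of_norm_fderiv_le (𝕜 := ℝ) (f := fun x => F j x - x)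
      (fun z a => at_df (d.sm ⟨(j, z), a⟩)) sm a a'
    rw [e, sub_sub_sub_cancel_left, norm_sub_rev] at this
    exact (sub_eq_zero.1 (norm_le_zero_iff.1 (by linarith))).symm

end Vale.Agent.P354SN
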