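import Vale.Agent.P354SN.Vf
import Mathlib.MeasureTheory.Integral.DominatedConvergence
import Mathlib.MeasureTheory.Integral.IntervalIntegral.FundThmCalculus

/-!
The flow of a timelike field in a lens.
-/

open scoped ContDiff
open Set Filter Topology Function

noncomputable section

namespace Vale.Agent.P354SN

open Vale.Agent.P354n (R4)
open Vale.Agent.P354H (X3)
open Vale.Agent.P354I (Dat)
open Vale.Agent.P354RC
open Vale.Agent.P354XE (Tw Lor eT pt xs Ft Tm)
open Vale.Agent.P354UR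
open Vale.Agent.P354YM

theorem lt_left {f : ℝ → ℝ} {f' s : ℝ} (h : HasDerivAt f f' s) (p : 0 < f') :
    ∀ᶠ t in 𝓝[<] s, f t < f s := by
  filter_upwards [(hasDerivAt_iff_tendsto_slope_left_right.1 h).1.eventually_const_lt p,
    self_mem_nhdsWithin] with t a b
  rw [slope_def_field] at a
  exact sub_neg.1 ((div_pos_iff.1 a).resolve_left fun k => (sub_pos.1 k.2).not_gt b).1

theorem lt_right {f : ℝ → ℝ} {f' s : ℝ} (h : HasDerivAt f f' s) (p : f' < 0) :
    ∀ᶠ t in 𝓝[>] s, f t < f s := by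
  filter_upwards [(hasDerivAt_iff_tendsto_slope_left_right.1 h).2.eventually_lt_const p,
    self_mem_nhdsWithin] with t a b
  rw [slope_def_field] at a
  exact sub_neg.1 ((div_neg_iff.1 a).resolve_left fun k => (sub_neg.1 k.2).not_gt b).1

/-- The global flow of Z. -/
structure Flo (Z : R4 → R4) (F : ℝ → R4 → R4) : Prop where
  sZ : ContDiff ℝ ∞ Z
  sm : ContDiff ℝ ∞ fun q : ℝ × R4 => F q.1 q.2
  zero : ∀ x, F 0 x = x
  ode : ∀ t x, HasDerivAt (fun s => F s x) (Z (F t x)) t
  add : ∀ s t x, F s (F t x) = F (s + t) x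

theorem ex_flo {Z : R4 → R4} (h : ContDiff ℝ ∞ Z) {C : ℝ} (b : ∀ x, ‖Z x‖ ≤ C) : ∃ F, Flo Z F := by
  obtain ⟨F, a, z, d, u⟩ := P265.H185.exists_global_flow Z h
    (P265.H185.exists_curve_of_bounded (h.of_le (by simp)) b)
  exact ⟨F, h, a, z, d, fun s t x => by
    simpa using (u (fun s => F (s + t) x) (fun s => (d (s + t) x).comp_add_const s t) s).symm⟩

/-- The flow out of the slice, and the mean value of the time component of Z. -/
def ph (F : ℝ → R4 → R4) (p : R4) : R4 := F p.1 (0, p.2)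
def qq (Z : R4 → R4) (F : ℝ → R4 → R4) (p : R4) : ℝ :=
  ∫ s in (0 : ℝ)..1, (Z (ph F (s * p.1, p.2))).1

variable {Z : R4 → R4} {F : ℝ → R4 → R4} {p x : R4} {y : X3}

namespace Flo
variable (h : Flo Z F)
include h

theorem ph_cd : ContDiff ℝ ∞ (ph F) :=
  h.sm.comp (contDiff_fst.prodMk (contDiff_const.prodMk contDiff_snd))

theorem ph0 (y : X3) : ph F (0, y) = (0, y) := h.zero _

theorem ph_d (t : ℝ) (y : X3) : HasDerivAt (fun s => ph F (s, y)) (Z (ph F (t, y))) t :=
  h.ode t (0, y)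

theorem ph_T (p : R4) : fderiv ℝ (ph F) p eT = Z (ph F p) :=
  (line_d (at_df h.ph_cd.contDiffAt)).unique (h.ph_d p.1 p.2)

theorem ph_inj (z : (Z (0, p.2)).1 ≠ 0) : Injective (fderiv ℝ (ph F) p) := by
  have d := fun q => (at_df (h.ph_cd.contDiffAt (x := q))).hasFDerivAt
  have dF := (at_df (h.sm.comp ((contDiff_const (c := -p.1)).prodMk contDiff_id)).contDiffAt
    (y := ph F p)).hasFDerivAt.comp p (d p)
  have d2 := (d (p - (p.1, 0))).comp p ((hasFDerivAt_id p).sub_const (p.1, 0))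
  have e := (dF.congr_of_eventuallyEq (f₁ := ph F ∘ fun x => id x - (p.1, 0))
    (.of_forall fun q => by simp [ph, h.add, sub_eq_neg_add])).unique d2
  have i : Injective (fderiv ℝ (ph F) (p - (p.1, 0))) := by
    rw [show p - (p.1, 0) = (0, p.2) by simp [Prod.ext_iff]]
    have k := ((d (0, p.2)).comp p.2 (hasFDerivAt_prodMk_right (0 : ℝ) p.2)).unique
      ((hasFDerivAt_prodMk_right (0 : ℝ) p.2).congr_of_eventuallyEq (.of_forall h.ph0))
    refine (injective_iff_map_eq_zero _).2 fun v a => ?_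
    have k2 : fderiv ℝ (ph F) (0, p.2) (0, v.2) = (0, v.2) := congrArg (· v.2) k
    rw [show v = v.1 • eT + (0, v.2) by simp [eT], map_add, map_smul, k2, h.ph_T, h.ph0] at a
    have v1 : v.1 = 0 := by simpa [z] using congrArg Prod.fst a
    exact Prod.ext v1 (by simpa [v1] using congrArg Prod.snd a)
  intro u v a
  have k := fun u => congrArg (· u) e
  simp only [ContinuousLinearMap.comp_apply, ContinuousLinearMap.id_apply] at k
  exact i (by rw [← k, ← k, a])

theorem qq_c : Continuous (qq Z F) :=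
  intervalIntegral.continuous_parametric_intervalIntegral_of_continuous'
    (f := fun (p : R4) s => (Z (ph F (s * p.1, p.2))).1)
    (h.sZ.continuous.comp (h.ph_cd.continuous.comp (by fun_prop))).fst 0 1

theorem qq_eq (p : R4) : (ph F p).1 = p.1 * qq Z F p := by
  have := intervalIntegral.integral_eq_sub_of_hasDerivAt (a := 0) (b := 1)
    (f := fun s => (ph F (s * p.1, p.2)).1) (f' := fun s => p.1 * (Z (ph F (s * p.1, p.2))).1)
    (fun s _ => ((h.ph_d _ p.2).scomp s (hasDerivAt_mul_const p.1)).fst)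
    (Continuous.intervalIntegrable (continuous_const.mul
      (h.sZ.continuous.comp (h.ph_cd.continuous.comp (by fun_prop))).fst) _ _)
  rw [intervalIntegral.integral_const_mul] at this
  simpa [h.ph0, qq] using this.symm

theorem qq0 (y : X3) : qq Z F (0, y) = (Z (0, y)).1 := by simp [qq, h.ph0]

variable {W : Set R4} {g : Tw} {Xf : R4 → R4} {τ : R4 → ℝ} {V V' T : ℝ} {d : Dat}
  (L : Lens W g Xf τ V d) (hZ : ∀ x ∈ KV W τ V, Ft g Xf x (Z x))
include L hZ

omit h in
theorem Z_pos (m : x ∈ KV W τ V) (z : x.1 = 0) : 0 < (Z x).1 := by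
  have e : pt 0 (xs x) = x := Prod.ext z.symm rfl
  have := (L.sig (xs x) (e.symm ▸ m)).1
  rw [e] at this
  simpa [fderiv_fst] using tm_pos L.lor m.1 this (hZ _ m)

theorem qq_pos (k : ∀ s ∈ Icc 0 T, ph F (s, y) ∈ KV W τ V) : ∀ s ∈ Icc 0 T, 0 < qq Z F (s, y) := by
  intro s m
  obtain rfl | a := m.1.eq_or_lt
  · exact h.qq0 y ▸ Z_pos L hZ (h.ph0 y ▸ k 0 m) rfl
  by_contra! n
  have e := h.qq_eq (s, y)
  have z : (ph F (s, y)).1 = 0 := le_antisymm (e ▸ mul_nonpos_of_nonneg_of_nonpos a.le n) (k s m).2.1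
  obtain ⟨t, b, c⟩ := ((lt_left (h.ph_d s y).fst (Z_pos L hZ (k s m) z)).and
    (Ioo_mem_nhdsLT a)).exists
  exact (b.trans_eq z).not_ge (k t ⟨c.1.le, c.2.le.trans m.2⟩).2.1

/-- The lines of Z reach the slice in the past. -/
theorem back (hV : V' ≤ V) (m : x ∈ KV W τ V') : ∃ T ≥ 0, ∃ y, ph F (T, y) = x ∧
    ∀ s ∈ Icc 0 T, ph F (s, y) ∈ KV W τ V' := by
  have sub : KV W τ V' ⊆ KV W τ V := fun x a => ⟨a.1, a.2.1, a.2.2.trans hV⟩
  have cτ : ContinuousOn τ (KV W τ V) := fun x a => (L.tm x a).1.continuousAt.continuousWithinAt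
  have cl : IsClosed (KV W τ V') := by
    convert cτ.preimage_isClosed_of_isClosed L.cpt.isClosed (isClosed_Iic (a := V')) using 1
    exact Subset.antisymm (fun x a => ⟨sub a, a.2.2⟩) fun x a => ⟨a.1.1, a.1.2.1, a.2⟩
  have dγ : ∀ s, HasDerivAt (fun s => F (-s) x) (-Z (F (-s) x)) s := fun s =>
    neg_one_smul ℝ (Z (F (-s) x)) ▸ (h.ode (-s) x).scomp s (hasDerivAt_neg s)
  have cγ : Continuous fun s => F (-s) x := continuous_iff_continuousAt.2 fun s => (dγ s).continuousAt
  have dτ : ∀ s, F (-s) x ∈ KV W τ V → HasDerivAt (fun s => τ (F (-s) x))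
      (-fderiv ℝ τ (F (-s) x) (Z (F (-s) x))) s := fun s a => by
    rw [← map_neg]
    exact ((L.tm _ a).1.differentiableAt one_ne_zero).hasFDerivAt.comp_hasDerivAt s (dγ s)
  have pos := fun x a => tm_pos L.lor a.1 (L.tm x a) (hZ x a)
  obtain ⟨x1, m1, c1⟩ := L.cpt.exists_isMinOn ⟨x, sub m⟩ (f := fun x => fderiv ℝ τ x (Z x))
    fun x a => ((((L.tm x a).1.fderiv_right (m := 0) (by simp)).continuousAt).clm_apply
      h.sZ.continuous.continuousAt).continuousWithinAt
  obtain ⟨x2, -, c2⟩ := L.cpt.exists_isMinOn ⟨x, sub m⟩ cτ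
  by_contra! n
  have all : ∀ B, Icc 0 B ⊆ {s | F (-s) x ∈ KV W τ V'} := fun B =>
    IsClosed.Icc_subset_of_forall_mem_nhdsGT_of_Icc_subset
      ((cl.preimage cγ).inter isClosed_Icc) (by simpa [h.zero] using m) fun t a b => by
        have mt : F (-t) x ∈ KV W τ V' := b ⟨a.1, le_rfl⟩
        have z : 0 < (F (-t) x).1 := mt.2.1.lt_of_ne' fun z => by
          have e : ∀ s, ph F (s, (F (-t) x).2) = F (-(t - s)) x := fun s => by
            rw [ph, show ((0 : ℝ), (F (-t) x).2) = F (-t) x from Prod.ext z.symm rfl, h.add]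
            congr 1
            ring
          obtain ⟨s, c, k⟩ := n t a.1 (F (-t) x).2 (by simp [e, h.zero])
          exact k (e s ▸ b ⟨sub_nonneg.2 c.2, sub_le_self _ c.1⟩)
        filter_upwards [lt_right (dτ t (sub mt)) (neg_neg_of_pos (pos _ (sub mt))),
          nhdsWithin_le_nhds (cγ.continuousAt.eventually_mem (L.lor.isOpen.mem_nhds mt.1)),
          nhdsWithin_le_nhds (cγ.fst.continuousAt.eventually_const_lt z)] with s a b c
        exact ⟨b, c.le, a.le.trans mt.2.2⟩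
  have p1 := pos x1 m1
  set c := fderiv ℝ τ x1 (Z x1)
  have B0 : 0 ≤ (τ x - τ x2) / c + 1 := by
    have := div_nonneg (sub_nonneg.2 (c2 (sub m))) p1.le
    linarith
  have := image_le_of_deriv_right_le_deriv_boundary (a := 0) (b := (τ x - τ x2) / c + 1)
    (f := fun s => τ (F (-s) x)) (fun s a => (dτ s (sub (all _ a))).continuousAt.continuousWithinAt)
    (fun s a => (dτ s (sub (all _ (Ico_subset_Icc_self a)))).hasDerivWithinAt)
    (B := fun s => τ x - c * s) (B' := fun _ => -c) (by simp [h.zero]) (by fun_prop)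
    (fun s _ => by simpa using (((hasDerivAt_id s).const_mul c).const_sub (τ x)).hasDerivWithinAt)
    (fun s a => neg_le_neg (c1 (sub (all _ (Ico_subset_Icc_self a))))) ⟨B0, le_rfl⟩
  have k := (c2 (sub (all _ ⟨B0, le_rfl⟩))).trans this
  rw [mul_add, mul_div_cancel₀ _ p1.ne'] at k
  linarith

end Flo

end Vale.Agent.P354SN
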