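import Vale.Agent.P354SA.Defs
import Vale.Agent.P354YQ.Reg

/-!
Null rays: families of pregeodesics which start orthogonally to the spheres.
-/

set_option maxSynthPendingDepth 3

open scoped ContDiff
open Set Filter Topology

noncomputable section

namespace Vale.Agent.P354SN

open Vale.Agent.P354n (R4)
open Vale.Agent.P354R (Met Pull)
open Vale.Agent.P354RC (B2 Gm C1 Rp C1_ap fd_pb sym2 pb_cd pb_ap fd_ap0 at_fd at_df)
open Vale.Agent.P354XD (tb rp_tb)
open Vale.Agent.P354XE (Tw pb Bd)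
open Vale.Agent.P354YQ (SA JB JD Sol)
open Vale.Agent.P354SA (e0 e1 ey)

/-- The parameter along the rays, zero on the top slice. -/
def ts (z : R4) : ℝ := z.1 - z.2.1

/-- Open sets which contain the segments to the top slice. -/
structure Sg (Ω : Set R4) : Prop where
  op : IsOpen Ω
  st : ∀ z ∈ Ω, ∀ s ∈ Icc (0 : ℝ) 1, P354YQ.pt e0 ts s z ∈ Ω

theorem ts_add (z : R4) (t : ℝ) : ts (z + t • e0) = ts z + t := by
  simp [ts, e0]
  ring

theorem ts_cd : ContDiff ℝ ∞ ts := contDiff_fst.sub contDiff_snd.fst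

/-- Linear transport equations. -/
theorem tr0 {Ω : Set R4} (hΩ : Sg Ω) {u c : R4 → ℝ} (hc : ContinuousOn c Ω)
    (hu : ∀ z ∈ Ω, DifferentiableAt ℝ u z ∧ fderiv ℝ u z e0 = c z * u z)
    (h0 : ∀ z ∈ Ω, ts z = 0 → u z = 0) : ∀ z ∈ Ω, u z = 0 := fun z hz => by
  let l : ℝ → R4 := fun t => P354YQ.pt e0 ts (1 - t) z
  have m : ∀ t ∈ Icc (0 : ℝ) 1, l t ∈ Ω := fun t h => hΩ.st z hz _ (P354YQ.flip_mem h)
  have dl : ∀ t, HasDerivAt l (ts z • e0) t := fun t => by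
    have := ((((hasDerivAt_id t).const_sub 1).mul_const (ts z)).smul_const e0).const_sub z
    simpa [l, P354YQ.pt] using this
  have cl : Continuous l := continuous_iff_continuousAt.2 fun t => (dl t).continuousAt
  obtain ⟨K, hK⟩ := isCompact_Icc.exists_bound_of_continuousOn
    (hc.comp cl.continuousOn fun t h => m t h)
  have d : ∀ t ∈ Icc (0 : ℝ) 1, HasDerivAt (fun t => u (l t)) (ts z * (c (l t) * u (l t))) t :=
    fun t h => by
      have := (hu _ (m t h)).1.hasFDerivAt.comp_hasDerivAt t (dl t)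
      rwa [map_smul, (hu _ (m t h)).2] at this
  have := eq_zero_of_abs_deriv_le_mul_abs_self_of_eq_zero_right (K := |ts z| * K)
    (fun t h => (d t h).continuousAt.continuousWithinAt)
    (fun t h => (d t (Ico_subset_Icc_self h)).hasDerivWithinAt)
    (h0 _ (m 0 ⟨le_rfl, zero_le_one⟩) (by
      simp only [l]
      rw [P354YQ.tau_pt ts_add]
      simp))
    (fun t h => by
      rw [norm_mul, norm_mul, ← mul_assoc]
      exact mul_le_mul_of_nonneg_right (mul_le_mul_of_nonneg_left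
        (hK t (Ico_subset_Icc_self h)) (norm_nonneg _)) (norm_nonneg _)) 1 ⟨zero_le_one, le_rfl⟩
  simpa [l, P354YQ.pt] using this

/-- The ray form. -/
def RF (g : Tw) (z : R4) : Prop := g z e0 e0 = 0 ∧ ∀ a, g z e0 (ey a) = 0

variable {g : Tw} {h : R4 → B2} {D Ω : Set R4} {F : R4 → R4}

theorem c1_pb (r : Rp g h D) {y : R4} (hy : F y ∈ D) (k : ContDiffAt ℝ ∞ F y) (a b c : R4) :
    C1 (P354RC.pb h F) y a b c = h (F y) (Gm h (F y) (fderiv ℝ F y a) (fderiv ℝ F y b) +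
      fderiv ℝ (fderiv ℝ F) y a b) (fderiv ℝ F y c) := by
  rw [map_add, add_apply, r.gm hy]
  simp only [C1_ap, fd_pb (r.at hy) k]
  rw [sym2 k b a, sym2 k c a, sym2 k c b, r.symm _ hy (fderiv ℝ F y b),
    r.symm _ hy (fderiv ℝ F y a) (fderiv ℝ (fderiv ℝ F) y b c)]
  ring

/-- RAY: the ray form propagates along pregeodesics. -/
theorem ray (r : Rp g h D) (hΩ : Sg Ω) {κ : R4 → ℝ} (hκ : ContinuousOn κ Ω)
    (hF : ∀ z ∈ Ω, ContDiffAt ℝ ∞ F z ∧ F z ∈ D ∧
      Gm h (F z) (fderiv ℝ F z e0) (fderiv ℝ F z e0) + fderiv ℝ (fderiv ℝ F) z e0 e0 =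
        κ z • fderiv ℝ F z e0)
    (h0 : ∀ z ∈ Ω, ts z = 0 → RF (pb F g) z) : ∀ z ∈ Ω, RF (pb F g) z := by
  have e : ∀ z ∈ Ω, ∀ a b, pb F g z a b = P354RC.pb h F z a b := fun z m a b =>
    r.eq _ (hF z m).2.1 _ _
  have s : ∀ z ∈ Ω, ContDiffAt ℝ ∞ (P354RC.pb h F) z := fun z m =>
    pb_cd (r.at (hF z m).2.1) (hF z m).1
  have d : ∀ z ∈ Ω, ∀ a b, DifferentiableAt ℝ (fun x => P354RC.pb h F x a b) z ∧ ∀ c,
      fderiv ℝ (fun x => P354RC.pb h F x a b) z c = fderiv ℝ (P354RC.pb h F) z c a b :=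
    fun z m a b => ⟨at_df (((s z m).clm_apply contDiffAt_const).clm_apply contDiffAt_const),
      fun c => by rw [fd_ap0 ((s z m).clm_apply contDiffAt_const), fd_ap0 (s z m)]⟩
  have c : ∀ z ∈ Ω, ∀ u, C1 (P354RC.pb h F) z e0 e0 u = κ z * P354RC.pb h F z e0 u :=
    fun z m u => by
      rw [c1_pb r (hF z m).2.1 (hF z m).1, (hF z m).2.2, map_smul, smul_apply,
        pb_ap, smul_eq_mul]
  have A := tr0 hΩ (u := fun x => P354RC.pb h F x e0 e0) (c := fun z => 2 * κ z)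
    (continuousOn_const.mul hκ) (fun z m => ⟨(d z m _ _).1, by
      have := c z m e0
      rw [C1_ap] at this
      rw [(d z m _ _).2]
      linarith⟩) fun z m t => (e z m _ _).symm.trans (h0 z m t).1
  refine fun z m => ⟨(e z m _ _).trans (A z m), fun a => (e z m _ _).trans ?_⟩
  refine tr0 hΩ (u := fun x => P354RC.pb h F x e0 (ey a)) hκ (fun z m => ⟨(d z m _ _).1, ?_⟩)
    (fun z m t => (e z m _ _).symm.trans ((h0 z m t).2 a)) z m
  have := c z m (ey a)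
  have k : (fun x => P354RC.pb h F x e0 e0) =ᶠ[𝓝 z] fun _ => 0 :=
    (hΩ.op.eventually_mem m).mono A
  rw [C1_ap, ← (d z m e0 e0).2 (ey a), k.fderiv_eq] at this
  rw [(d z m _ _).2]
  simpa using this

/-- In the ray form the lines along e0 are pregeodesics. -/
theorem gm_rf (r : Rp g h D) {z : R4} (hz : z ∈ D) (k : ∀ᶠ x in 𝓝 z, RF g x)
    (h1 : g z e0 e1 ≠ 0) : Gm h z e0 e0 = (Gm h z e0 e0).1 • e0 := by
  have d : ∀ u v, (∀ᶠ x in 𝓝 z, g x u v = 0) → ∀ c, fderiv ℝ h z c u v = 0 := fun u v a c => by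
    have : (fun x => h x u v) =ᶠ[𝓝 z] fun _ => 0 := by
      filter_upwards [a, r.op.mem_nhds hz] with x p q using (r.eq x q u v).symm.trans p
    rw [← fd_ap0 (r.at hz), ← fd_ap0 ((r.at hz).clm_apply contDiffAt_const), this.fderiv_eq]
    simp
  have a := d _ _ (k.mono fun _ m => m.1)
  have b := fun i => d _ _ (k.mono fun _ m => m.2 i)
  have p := k.self_of_nhds
  have E : Gm h z e0 e0 = (C1 h z e0 e0 e1 / g z e0 e1) • e0 := r.ext hz fun c => by
    have q : c = c.1 • e0 + c.2.1 • e1 + c.2.2.1 • ey 0 + c.2.2.2 • ey 1 := by simp [e0, e1, ey]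
    rw [r.gm hz, q]
    simp only [map_add, map_smul, smul_apply, smul_eq_mul, ← r.eq z hz, p.1,
      p.2]
    rw [div_mul_cancel₀ _ h1]
    simp [C1_ap, a, b]
  rw [E]
  simp [e0]

/-! ### The null normal of the spheres -/

def dt (T : B2) : ℝ := T (ey 0) (ey 0) * T (ey 1) (ey 1) - T (ey 0) (ey 1) ^ 2
def pr (T : B2) (u : R4) : R4 :=
  u - (dt T)⁻¹ • ((T (ey 1) (ey 1) * T u (ey 0) - T (ey 0) (ey 1) * T u (ey 1)) • ey 0 +
    (T (ey 0) (ey 0) * T u (ey 1) - T (ey 0) (ey 1) * T u (ey 0)) • ey 1)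
def qa (T : B2) : ℝ := T (pr T e0) (pr T e0)
def qb (T : B2) : ℝ := T (pr T e0) (pr T e1)
def qd (T : B2) : ℝ := qb T ^ 2 - qa T * T (pr T e1) (pr T e1)
def w0 (T : B2) : R4 := pr T e0 - (qa T * (qb T + √(qd T))⁻¹) • pr T e1
def Ow : Set B2 := {T | 0 < dt T ∧ 0 < qb T ∧ 0 < qd T}

theorem ap_cd (u v : R4) : ContDiff ℝ ∞ fun T : B2 => T u v :=
  (contDiff_id.clm_apply contDiff_const).clm_apply contDiff_const

theorem dt_cd : ContDiff ℝ ∞ dt := ((ap_cd _ _).mul (ap_cd _ _)).sub ((ap_cd _ _).pow 2)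

variable {T : B2}

theorem pr_cd (k : dt T ≠ 0) (u : R4) : ContDiffAt ℝ ∞ (fun T => pr T u) T :=
  contDiffAt_const.sub ((dt_cd.contDiffAt.inv k).smul
    (((((ap_cd _ _).mul (ap_cd _ _)).sub ((ap_cd _ _).mul (ap_cd _ _))).smul contDiff_const).add
    ((((ap_cd _ _).mul (ap_cd _ _)).sub ((ap_cd _ _).mul (ap_cd _ _))).smul
      contDiff_const)).contDiffAt)

theorem q_cd (k : dt T ≠ 0) (u v : R4) : ContDiffAt ℝ ∞ (fun T : B2 => T (pr T u) (pr T v)) T :=
  (contDiffAt_id.clm_apply (pr_cd k u)).clm_apply (pr_cd k v)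

theorem qd_cd (k : dt T ≠ 0) : ContDiffAt ℝ ∞ qd T :=
  ((q_cd k _ _).pow 2).sub ((q_cd k _ _).mul (q_cd k _ _))

theorem ow_open : IsOpen Ow := isOpen_iff_mem_nhds.2 fun T m => by
  filter_upwards [dt_cd.continuous.continuousAt.eventually (lt_mem_nhds m.1),
    (q_cd m.1.ne' e0 e1).continuousAt.eventually (lt_mem_nhds m.2.1),
    (qd_cd m.1.ne').continuousAt.eventually (lt_mem_nhds m.2.2)] with S a b c using ⟨a, b, c⟩

theorem w0_cd (m : T ∈ Ow) : ContDiffAt ℝ ∞ w0 T :=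
  (pr_cd m.1.ne' _).sub (((q_cd m.1.ne' _ _).mul (((q_cd m.1.ne' _ _).add
    ((qd_cd m.1.ne').sqrt m.2.2.ne')).inv (add_pos_of_pos_of_nonneg m.2.1 (Real.sqrt_nonneg _)).ne')).smul
    (pr_cd m.1.ne' _))

theorem w0_fst : (w0 T).1 = 1 := by simp [w0, pr, e0, e1, ey]

theorem pr_ey (s : ∀ a b, T a b = T b a) (k : dt T ≠ 0) (u : R4) (a : Fin 2) :
    T (pr T u) (ey a) = 0 := by
  have := s (ey 1) (ey 0)
  fin_cases a <;>
  · simp only [pr, map_sub, map_add, map_smul, sub_apply,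
      add_apply, smul_apply, smul_eq_mul, Fin.zero_eta,
      Fin.mk_one, Fin.isValue, this]
    field_simp
    simp only [dt]
    ring

theorem w0_null (s : ∀ a b, T a b = T b a) (m : T ∈ Ow) :
    T (w0 T) (w0 T) = 0 ∧ ∀ a, T (w0 T) (ey a) = 0 := by
  refine ⟨?_, fun a => by simp [w0, pr_ey s m.1.ne']⟩
  have p := (add_pos_of_pos_of_nonneg m.2.1 (Real.sqrt_nonneg (qd T))).ne'
  have q := Real.sq_sqrt m.2.2.le
  simp only [w0, map_sub, map_smul, sub_apply, smul_apply,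
    smul_eq_mul, s (pr T e1) (pr T e0)]
  rw [← qa, ← qb]
  generalize √(qd T) = x at *
  rw [qd] at q
  field_simp
  linear_combination qa T * q

theorem pr_rf (a : ∀ i, T e0 (ey i) = 0) : pr T e0 = e0 := by simp [pr, a]

theorem w0_rf (a : T e0 e0 = 0) (b : ∀ i, T e0 (ey i) = 0) :
    w0 T = e0 ∧ qb T = T e0 e1 ∧ qd T = T e0 e1 ^ 2 := by
  have : qb T = T e0 e1 := by
    rw [qb, pr_rf b]
    simp [pr, b]
  exact ⟨by simp [w0, qa, pr_rf b, a], this, by simp [qd, qa, pr_rf b, a, this]⟩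

end Vale.Agent.P354SN
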