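import Vale.Agent.P354YM.Props
import Vale.Agent.P354UR.Fr0

/-!
RU2: uniqueness of the rolling along one line, and the time orientation of the frame.
-/

set_option maxSynthPendingDepth 3

open scoped ContDiff
open Set Filter Topology

namespace Vale.Agent.P354SN

open Vale.Agent.P354n (R4 mink)
open Vale.Agent.P354I (X Dat pd ee)
open Vale.Agent.P354RC
open Vale.Agent.P354XD (tb rp_tb)
open Vale.Agent.P354XE (Tw Lor eT pt xs Ft Tm)
open Vale.Agent.P354XU (L4 chol Rol St0)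
open Vale.Agent.P354YO (mink_neg mink_pos cone_trans cone_pos)
open Vale.Agent.P354UR
open Vale.Agent.P354YM

section ode
variable {E : Type} [NormedAddCommGroup E] [NormedSpace ℝ E] {w : ℝ × E → E} {γ γ' : ℝ → E}

theorem uq0 (hw : ∀ t ∈ Icc (0 : ℝ) 1, ContDiffAt ℝ 1 w (t, γ t))
    (h : ∀ t ∈ Icc (0 : ℝ) 1, HasDerivAt γ (w (t, γ t)) t)
    (h' : ∀ t ∈ Icc (0 : ℝ) 1, HasDerivAt γ' (w (t, γ' t)) t) (e : γ 0 = γ' 0) : γ 1 = γ' 1 := by
  have c : ContinuousOn γ (Icc 0 1) := fun t m => (h t m).continuousAt.continuousWithinAt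
  have c' : ContinuousOn γ' (Icc 0 1) := fun t m => (h' t m).continuousAt.continuousWithinAt
  refine IsClosed.Icc_subset_of_forall_mem_nhdsWithin (s := {t | γ t = γ' t}) ?_ e
    (fun x m => ?_) ⟨zero_le_one, le_rfl⟩
  · rw [inter_comm]
    exact isClosed_Icc.isClosed_eq c c'
  have mx := Ico_subset_Icc_self m.2
  obtain ⟨K, T, hT, hK⟩ := (hw x mx).exists_lipschitzOnWith
  have a1 : ∀ᶠ s in 𝓝 x, (s, γ s) ∈ T :=
    (continuousAt_id.prodMk (h x mx).continuousAt).eventually hT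
  have a2 : ∀ᶠ s in 𝓝 x, (s, γ' s) ∈ T :=
    (continuousAt_id.prodMk (h' x mx).continuousAt).eventually
      (show T ∈ 𝓝 (x, γ' x) from m.1 ▸ hT)
  obtain ⟨u, hu, k⟩ := mem_nhdsGE_iff_exists_Icc_subset.1
    (mem_nhdsWithin_of_mem_nhds ((a1.and a2).and (Iio_mem_nhds m.2.2)) :
      _ ∈ 𝓝[≥] x)
  have s : Icc x u ⊆ Icc 0 1 := fun t a => ⟨mx.1.trans a.1, (k a).2.le⟩
  have s' : Ico x u ⊆ Icc x u := Ico_subset_Icc_self
  have := ODE_solution_unique_of_mem_Icc_right (K := K) (v := fun s x => w (s, x))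
    (s := fun s => {x | (s, x) ∈ T}) (fun s _ x a y b => by simpa [Prod.edist_eq] using hK a b)
    (c.mono s) (fun t a => (h t (s (s' a))).hasDerivWithinAt) (fun t a => (k (s' a)).1.1)
    (c'.mono s) (fun t a => (h' t (s (s' a))).hasDerivWithinAt) (fun t a => (k (s' a)).1.2) m.1
  exact mem_of_superset (Icc_mem_nhdsGT hu) this

/-- Uniqueness on a closed interval. -/
theorem uq1 {T : ℝ} (hw : ∀ t ∈ uIcc 0 T, ContDiffAt ℝ 1 w (t, γ t))
    (h : ∀ t ∈ uIcc 0 T, HasDerivAt γ (w (t, γ t)) t)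
    (h' : ∀ t ∈ uIcc 0 T, HasDerivAt γ' (w (t, γ' t)) t) (e : γ 0 = γ' 0) : γ T = γ' T := by
  have m : ∀ s ∈ Icc (0 : ℝ) 1, s * T ∈ uIcc 0 T := fun s a => mem_uI.2 ⟨s, a, rfl⟩
  have d : ∀ {γ : ℝ → E}, (∀ t ∈ uIcc 0 T, HasDerivAt γ (w (t, γ t)) t) → ∀ s ∈ Icc (0 : ℝ) 1,
      HasDerivAt (fun s => γ (s * T)) (T • w (s * T, γ (s * T))) s := fun h s a =>
    (h _ (m s a)).scomp s (hasDerivAt_mul_const T)
  simpa using uq0 (w := fun z => T • w (z.1 * T, z.2)) (γ := fun s => γ (s * T))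
    (γ' := fun s => γ' (s * T)) (fun s a => ContDiffAt.const_smul _
      (ContDiffAt.comp (g := w) _ (hw _ (m s a)) (by fun_prop))) (d h) (d h') (by simpa using e)

end ode

theorem pd_pos {H : M3} (h : H.PosDef) : Pd H :=
  pd_of (B := ∑ i : Fin 3, ∑ k : Fin 3, H i k • (cv i.succ).smulRight (cv k.succ))
    (v := fun i => bs i.succ) (fun a b => by
      have := fun i k => h.1.apply i k
      simp only [star_trivial] at this
      simp [Fin.sum_univ_three, this 1 0, this 2 0, this 2 1]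
      ring)
    (fun i k => by fin_cases i <;> fin_cases k <;> simp [Fin.sum_univ_three, cv, bs])
    fun a b c k => by
      have := h.dotProduct_mulVec_pos (x := ![a, b, c]) fun e => by
        have := fun i => congrFun e i
        rcases k with k | k | k
        exacts [k (this 0), k (this 1), k (this 2)]
      refine this.trans_eq ?_
      simp [Fin.sum_univ_three, cv, bs, dotProduct, Matrix.mulVec]
      ring

variable {g g' : Tw} {D Ω Ω' : Set R4} {Xf c c' b b' : R4 → R4} {E E' : R4 → L4} {d : Dat}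
  {p x : R4}

/-- The canonical frame is unique. -/
theorem fr_uq (l : Lor g D Xf) (m : x ∈ D) {F F' : L4} (on : ∀ v w, g x (F v) (F w) = mink v w)
    (on' : ∀ v w, g x (F' v) (F' w) = mink v w) (fu : g x (F eT) (Xf x) < 0)
    (fu' : g x (F' eT) (Xf x) < 0) {H : M3} (P : Pd H)
    (e : ∀ i, F (pt 0 (WithLp.toLp 2 fun k => chol H k i)) =
      F' (pt 0 (WithLp.toLp 2 fun k => chol H k i))) : F = F' := by
  obtain ⟨a0, a1, a2⟩ := P.pos
  have c0 : pt 0 (WithLp.toLp 2 fun k => chol H k 0) = chol H 0 0 • bs 1 := by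
    simp [pt, bs, chol]
  have c1 : pt 0 (WithLp.toLp 2 fun k => chol H k 1) = chol H 0 1 • bs 1 + chol H 1 1 • bs 2 := by
    simp [pt, bs, chol]
  have c2 : pt 0 (WithLp.toLp 2 fun k => chol H k 2) =
      chol H 0 2 • bs 1 + chol H 1 2 • bs 2 + chol H 2 2 • bs 3 := by simp [pt, bs]
  have e0 := e 0
  have e1 := e 1
  have e2 := e 2
  simp only [c0, c1, c2, map_add, map_smul] at e0 e1 e2
  have k1 := smul_right_injective _ a0.ne' e0
  rw [k1] at e1 e2
  have k2 := smul_right_injective _ a1.ne' (add_left_cancel e1)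
  rw [k2] at e2
  have k3 := smul_right_injective _ a2.ne' (add_left_cancel e2)
  have li := l.met.lin x m
  have sy := l.met.symm x m
  obtain ⟨u, hu⟩ := surj_of_inj (F := F) ((injective_iff_map_eq_zero _).2 fun v a =>
    mink_nd fun w => by rw [← on, a, sy, (li _).map_zero]) (F' eT)
  have o1 := on u (bs 1)
  have o2 := on u (bs 2)
  have o3 := on u (bs 3)
  have o0 := on u u
  rw [hu, on'] at o0
  rw [hu, k1, on'] at o1
  rw [hu, k2, on'] at o2
  rw [hu, k3, on'] at o3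
  simp [bs, eT, mink, P354n.cu, P354n.cv, P354n.c1, P354n.c2] at o1 o2 o3
  have u0 : u = u.1 • eT := by simp [eT, Prod.ext_iff, ← o1, ← o2, ← o3]
  simp [eT, mink, P354n.cu, P354n.cv, P354n.c1, P354n.c2, ← o1, ← o2, ← o3] at o0
  rw [← hu, u0, map_smul, sy, (li _).map_smul, sy, smul_eq_mul] at fu'
  have u1 : u.1 = 1 := by nlinarith [pos_of_mul_neg_left fu' fu.le]
  rw [u0, u1, one_smul] at hu
  refine ContinuousLinearMap.ext fun v => ?_
  rw [← sum_bs v, Fin.sum_univ_four]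
  simp only [map_add, map_smul, k1, k2, k3, show bs 0 = eT from rfl, hu]

theorem mink_T (v : R4) : mink v eT = -v.1 := by
  simp [eT, mink, P354n.cu, P354n.cv, P354n.c1, P354n.c2]

theorem pt_z (p : R4) : pt 0 (xs p) = (0, p.2) := rfl

/-- The first vector of the frame is future directed. -/
theorem Ro.fut (l : Lor g D Xf) (R : Ro g D Xf d c Ω b E) (m : p ∈ Ω) :
    g (b p) (E p eT) (Xf (b p)) < 0 := by
  have r := rp_tb l.isOpen l.met
  have s := R.star p m
  have mD := fun t a => R.rol.maps (s t a)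
  have c : ContinuousOn (fun t => tb g (b (t, p.2)) (E (t, p.2) eT) (Xf (b (t, p.2))))
      (uIcc 0 p.1) := fun t a => by
    have k := (line p.2 t).continuousAt
    have kb := ContinuousAt.comp (f := fun s => (s, p.2)) (Fr.atb R.rol.toFr (s t a)).continuousAt k
    have kE := ContinuousAt.comp (f := fun s => (s, p.2)) (Fr.atE R.rol.toFr (s t a)).continuousAt k
    exact (((ContinuousAt.comp (f := fun s => b (s, p.2)) (r.at (mD t a)).continuousAt kb).clm_apply
      (kE.clm_apply continuousAt_const)).clm_apply (ContinuousAt.comp (f := fun s => b (s, p.2))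
        (l.cont.continuousAt (l.isOpen.mem_nhds (mD t a))) kb)).continuousWithinAt
  have z := R.st (xs p) (s 0 left_mem_uIcc)
  have h0 : tb g (b (0, p.2)) (E (0, p.2) eT) (Xf (b (0, p.2))) < 0 := by
    rw [← r.eq _ (mD 0 left_mem_uIcc), ← pt_z, z.1]
    exact z.2.1
  by_contra k
  rw [r.eq _ (R.rol.maps m), not_lt] at k
  obtain ⟨t, a, e⟩ := intermediate_value_uIcc c (mem_uIcc_of_le h0.le k)
  have n := l.tl _ (mD t a)
  have o := R.rol.on _ (s t a) eT eT
  have := pos_perp l (mD t a) n ((r.eq _ (mD t a) _ _).trans e) fun j => by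
    rw [j, (l.met.lin _ (mD t a) _).map_zero, mink_T] at o
    simp [eT] at o
  rw [o, mink_T] at this
  simp [eT] at this
  linarith

theorem Ro.ft (l : Lor g D Xf) (R : Ro g D Xf d c Ω b E) (m : p ∈ Ω) (t : Tl c p) :
    Ft g Xf (b p) (E p (c p)) := by
  have mD := R.rol.maps m
  have o := R.rol.on p m
  exact ⟨(o _ _).trans_lt t.1, cone_trans l mD ((o _ _).trans_lt t.1) (v := E p eT)
    (by rw [o, mink_T]; simp [eT]) (l.tl _ mD).le (by rw [o, mink_T]; simpa using t.2)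
    (Ro.fut l R m)⟩

/-- **RU2.** -/
theorem ru2 : RU2 := by
  intro g D Xf d c Ω b E l hd R p m ne
  refine ⟨Ro.ft l R m, fun c' Ω' b' E' R' m' e => ?_⟩
  have r := rp_tb l.isOpen l.met
  have s := R.star p m
  have s' := R'.star p m'
  have z := R.st (xs p) (s 0 left_mem_uIcc)
  have z' := R'.st (xs p) (s' 0 left_mem_uIcc)
  have k : ∀ {c Ω b E}, Rol g D Ω c 0 b E → ∀ t, (t, p.2) ∈ Ω →
      HasDerivAt (fun t => (b (t, p.2), E (t, p.2))) (vr g c 0 ((t, p.2), b (t, p.2), E (t, p.2))) t :=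
    fun R t a => (vr_iff (at_df (Fr.atb R.toFr a)) (at_df (Fr.atE R.toFr a))).2 ⟨R.db _ a, R.dE _ a⟩ ▸
      line_d ((at_df (Fr.atb R.toFr a)).prodMk (at_df (Fr.atE R.toFr a)))
  have mD : pt 0 (xs p) ∈ D := z.1 ▸ R.rol.maps (s 0 left_mem_uIcc)
  refine congrArg Prod.fst (uq1 (w := fun q => vr g c 0 ((q.1, p.2), q.2))
    (γ := fun t => (b (t, p.2), E (t, p.2))) (γ' := fun t => (b' (t, p.2), E' (t, p.2)))
    (fun t a => ContDiffAt.comp (g := vr g c 0) _ ((vr_cd (z := ((t, p.2), b (t, p.2), E (t, p.2)))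
      r (Rol.cd R.rol r (s t a)).1 contDiffAt_const (R.rol.maps (s t a))).of_le (by simp))
      (by fun_prop)) (fun t a => k R.rol t (s t a)) (fun t a => ?_)
    (Prod.ext (z.1.trans z'.1.symm) ?_))
  · have := k R'.rol t (s' t a)
    simp only [vr, ← e t a] at this ⊢
    exact this
  · exact fr_uq l mD (z.1 ▸ R.rol.on _ (s 0 left_mem_uIcc)) (z'.1 ▸ R'.rol.on _ (s' 0 left_mem_uIcc))
      z.2.1 z'.2.1 (pd_pos (hd.2 _ ne).1) fun i => (z.2.2 i).symm.trans (z'.2.2 i)

end Vale.Agent.P354SN
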